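import Mathlib

/-! Connected sets of edges: decomposition, counting, cycles. -/

namespace Vale.Agent.P050

open Finset

set_option linter.unusedSectionVars false

variable {V : Type*} [Fintype V] [DecidableEq V]

/-- Two edges share a vertex. -/
def Touch (e f : Sym2 V) : Prop := ∃ v, v ∈ e ∧ v ∈ f

theorem Touch.symm {e f : Sym2 V} (h : Touch e f) : Touch f e := by
  obtain ⟨v, h1, h2⟩ := h; exact ⟨v, h2, h1⟩

/-- A union of components. -/
def Closed (T Q : Finset (Sym2 V)) : Prop := Q ⊆ T ∧ ∀ e ∈ Q, ∀ f ∈ T, Touch e f → f ∈ Q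

/-- A connected nonempty set of edges. -/
def Conn (F : Finset (Sym2 V)) : Prop := F.Nonempty ∧ ∀ Q, Closed F Q → Q.Nonempty → Q = F

/-- The vertices covered by a set of edges. -/
def verts (F : Finset (Sym2 V)) : Finset V := F.biUnion Sym2.toFinset

theorem mem_verts {F : Finset (Sym2 V)} {v : V} : v ∈ verts F ↔ ∃ e ∈ F, v ∈ e := by
  simp [verts]

theorem card_verts_le (F : Finset (Sym2 V)) : (verts F).card ≤ 2 * F.card := by
  refine Finset.card_biUnion_le.trans ((sum_le_card_nsmul _ _ 2 fun e _ => ?_).trans ?_)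
  · induction e using Sym2.ind with
    | _ a b =>
      rw [show (s(a, b)).toFinset = {a, b} from by ext; simp]
      exact Finset.card_le_two
  · rw [smul_eq_mul, mul_comm]

/-- The edges of `E` away from the vertices of `F`. -/
def off (E F : Finset (Sym2 V)) : Finset (Sym2 V) :=
  E.filter fun f => ∀ v ∈ f.toFinset, v ∉ verts F

theorem mem_off {E F : Finset (Sym2 V)} {f : Sym2 V} :
    f ∈ off E F ↔ f ∈ E ∧ ∀ g ∈ F, ¬ Touch g f := by
  simp only [off, mem_filter, Sym2.mem_toFinset, mem_verts, Touch]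
  constructor
  · rintro ⟨h1, h2⟩; exact ⟨h1, fun g hg ⟨v, hv1, hv2⟩ => h2 v hv2 ⟨g, hg, hv1⟩⟩
  · rintro ⟨h1, h2⟩; exact ⟨h1, fun v hv ⟨g, hg, hv'⟩ => h2 g hg ⟨v, hv', hv⟩⟩

theorem touch_self (e : Sym2 V) : Touch e e := by
  induction e using Sym2.ind with
  | _ a b => exact ⟨a, Sym2.mem_mk_left _ _, Sym2.mem_mk_left _ _⟩

open scoped Classical in
/-- The component of `e` in `T`. -/
noncomputable def compE (T : Finset (Sym2 V)) (e : Sym2 V) : Finset (Sym2 V) :=
  T.filter fun f => ∀ Q, Closed T Q → e ∈ Q → f ∈ Q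

theorem compE_spec {T : Finset (Sym2 V)} {e : Sym2 V} (he : e ∈ T) :
    e ∈ compE T e ∧ Closed T (compE T e) ∧ Conn (compE T e) := by
  classical
  have h1 : e ∈ compE T e := mem_filter.2 ⟨he, fun Q _ h => h⟩
  have h2 : Closed T (compE T e) := ⟨filter_subset _ _, fun f hf g hg ht =>
    mem_filter.2 ⟨hg, fun Q hQ heQ => hQ.2 f ((mem_filter.1 hf).2 Q hQ heQ) g hg ht⟩⟩
  refine ⟨h1, h2, ⟨e, h1⟩, fun Q hQ hne => ?_⟩
  have hcl : ∀ Q, Closed (compE T e) Q → e ∈ Q → Q = compE T e := by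
    intro Q hQ heQ
    refine Subset.antisymm hQ.1 fun f hf => ?_
    exact (mem_filter.1 hf).2 Q ⟨hQ.1.trans h2.1, fun g hg k hk ht =>
      hQ.2 g hg k (h2.2 g (hQ.1 hg) k hk ht) ht⟩ heQ
  by_contra hne'
  have heQ : e ∉ Q := fun h => hne' (hcl Q hQ h)
  have := hcl (compE T e \ Q) ⟨sdiff_subset, fun g hg k hk ht => mem_sdiff.2 ⟨hk, fun hkQ =>
    (mem_sdiff.1 hg).2 (hQ.2 k hkQ g (mem_sdiff.1 hg).1 ht.symm)⟩⟩ (mem_sdiff.2 ⟨h1, heQ⟩)
  obtain ⟨f, hf⟩ := hne
  have hf' : f ∈ compE T e \ Q := this.symm ▸ hQ.1 hf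
  exact (mem_sdiff.1 hf').2 hf

open scoped Classical in
/-- Connected subsets of `E`. -/
noncomputable def conns (E : Finset (Sym2 V)) : Finset (Finset (Sym2 V)) := E.powerset.filter Conn

/-- Sets containing `e` correspond to a connected set at `e` and a set away from it. -/
theorem sum_mem_decomp {M : Type*} [AddCommMonoid M] (E : Finset (Sym2 V)) (e : Sym2 V)
    (φ : Finset (Sym2 V) → M) :
    ∑ T ∈ E.powerset with e ∈ T, φ T =
      ∑ F ∈ conns E with e ∈ F, ∑ R ∈ (off E F).powerset, φ (F ∪ R) := by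
  classical
  rw [Finset.sum_sigma']
  refine Finset.sum_nbij' (fun T => ⟨compE T e, T \ compE T e⟩) (fun p => p.1 ∪ p.2) ?_ ?_ ?_ ?_ ?_
  · intro T hT
    simp only [mem_filter, mem_powerset] at hT
    obtain ⟨h1, h2, h3⟩ := compE_spec hT.2
    simp only [mem_sigma, mem_filter, conns, mem_powerset]
    refine ⟨⟨⟨h2.1.trans hT.1, h3⟩, h1⟩, fun f hf => mem_off.2 ⟨hT.1 (mem_sdiff.1 hf).1,
      fun g hg ht => (mem_sdiff.1 hf).2 (h2.2 g hg f (mem_sdiff.1 hf).1 ht)⟩⟩
  · intro p hp
    simp only [mem_sigma, mem_filter, conns, mem_powerset] at hp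
    simp only [mem_filter, mem_powerset]
    exact ⟨union_subset hp.1.1.1 (hp.2.trans (filter_subset _ _)), mem_union_left _ hp.1.2⟩
  · intro T hT
    simp only [mem_filter, mem_powerset] at hT
    exact union_sdiff_of_subset (compE_spec hT.2).2.1.1
  · rintro ⟨F, R⟩ hp
    simp only [mem_sigma, mem_filter, conns, mem_powerset] at hp
    obtain ⟨⟨⟨hFE, hF⟩, heF⟩, hR⟩ := hp
    have heT : e ∈ F ∪ R := mem_union_left _ heF
    obtain ⟨h1, h2, h3⟩ := compE_spec heT
    have hsub : compE (F ∪ R) e ⊆ F := fun f hf => (mem_filter.1 hf).2 F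
      ⟨subset_union_left, fun g hg k hk ht => (mem_union.1 hk).resolve_right fun hkR =>
        (mem_off.1 (hR hkR)).2 g hg ht⟩ heF
    have hcomp : compE (F ∪ R) e = F := hF.2 _
      ⟨hsub, fun g hg k hk ht => h2.2 g hg k (mem_union_left _ hk) ht⟩ ⟨e, h1⟩
    show (⟨compE (F ∪ R) e, (F ∪ R) \ compE (F ∪ R) e⟩ : Σ _ : Finset (Sym2 V), Finset (Sym2 V))
      = ⟨F, R⟩
    rw [hcomp, Finset.union_sdiff_left, sdiff_eq_self_of_disjoint]
    exact disjoint_left.2 fun f hfR hfF => (mem_off.1 (hR hfR)).2 f hfF (touch_self f)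
  · intro T hT
    simp only [mem_filter, mem_powerset] at hT
    rw [union_sdiff_of_subset (compE_spec hT.2).2.1.1]

/-- Every component of `R` meets `W`. -/
def Grown (W : Finset V) (R : Finset (Sym2 V)) : Prop :=
  ∀ Q, Closed R Q → Q.Nonempty → ∃ f ∈ Q, ∃ w ∈ W, w ∈ f

theorem grown_sdiff {F S : Finset (Sym2 V)} (hF : Conn F) (hSF : S ⊆ F) (hS : S.Nonempty) :
    Grown (verts S) (F \ S) := by
  intro Q hQ hne
  by_contra hcon
  push Not at hcon
  have : Q = F := hF.2 Q ⟨hQ.1.trans sdiff_subset, fun g hg k hk ht => by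
    refine hQ.2 g hg k (mem_sdiff.2 ⟨hk, fun hkS => ?_⟩) ht
    obtain ⟨v, hv1, hv2⟩ := ht
    exact hcon g hg v (mem_verts.2 ⟨k, hkS, hv2⟩) hv1⟩ hne
  obtain ⟨f, hf⟩ := hS
  exact (mem_sdiff.1 (hQ.1 (this.symm ▸ hSF hf))).2 hf

open scoped Classical in
/-- The generating function of grown sets. -/
theorem grown_count {x B : ℝ} {Δ : ℕ} (hx : 0 ≤ x) (hB : 1 ≤ B) (hΔB : (1 + x * B) ^ Δ ≤ B) :
    ∀ (N : ℕ) (A : Finset (Sym2 V)) (W : Finset V), W.card + 2 * A.card ≤ N →
      (∀ v, (A.filter fun f => v ∈ f).card ≤ Δ) →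
      ∑ R ∈ A.powerset with Grown W R, x ^ R.card ≤ B ^ W.card := by
  intro N
  induction N using Nat.strong_induction_on with
  | _ N ih =>
  intro A W hN hdeg
  rcases W.eq_empty_or_nonempty with rfl | ⟨v, hv⟩
  · refine le_of_eq ?_
    rw [show (A.powerset.filter fun R => Grown (∅ : Finset V) R) = {∅} from ?_]
    · simp
    refine eq_singleton_iff_unique_mem.2 ⟨mem_filter.2 ⟨empty_mem_powerset _, fun Q hQ hne => ?_⟩,
      fun R hR => ?_⟩
    · obtain ⟨f, hf⟩ := hne; exact absurd (hQ.1 hf) (by simp)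
    · by_contra hne
      obtain ⟨f, -, w, hw, -⟩ := (mem_filter.1 hR).2 R ⟨Subset.rfl, fun _ _ k hk _ => hk⟩
        (nonempty_iff_ne_empty.2 hne)
      simp at hw
  set Av := A.filter fun f => v ∈ f with hAv
  set W' : Finset (Sym2 V) → Finset V := fun Rv => W.erase v ∪ (verts Rv).erase v with hW'
  have hW'c : ∀ Rv, Rv ⊆ Av → (W' Rv).card ≤ W.card - 1 + Rv.card := by
    intro Rv hRv
    refine (card_union_le _ _).trans (Nat.add_le_add (by rw [card_erase_of_mem hv]) ?_)
    rw [verts, erase_biUnion]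
    refine card_biUnion_le.trans ((sum_le_card_nsmul _ _ 1 fun f hf => ?_).trans (by simp))
    have hvf := (mem_filter.1 (hRv hf)).2
    rw [card_erase_of_mem (Sym2.mem_toFinset.2 hvf)]
    induction f using Sym2.ind with
    | _ a b =>
      rw [show (s(a, b)).toFinset = {a, b} from by ext; simp]
      have := Finset.card_le_two (a := a) (b := b)
      omega
  calc ∑ R ∈ A.powerset with Grown W R, x ^ R.card
      ≤ ∑ p ∈ Av.powerset.sigma (fun Rv => (A \ Av).powerset.filter (Grown (W' Rv))),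
          x ^ p.1.card * x ^ p.2.card := by
        refine le_trans (le_of_eq ?_) (sum_le_sum_of_subset_of_nonneg (s :=
          ((A.powerset.filter (Grown W)).image fun R =>
            (⟨R ∩ Av, R \ Av⟩ : Σ _ : Finset (Sym2 V), Finset (Sym2 V)))) ?_
          fun _ _ _ => mul_nonneg (pow_nonneg hx _) (pow_nonneg hx _))
        · rw [sum_image fun R₁ _ R₂ _ h => ?_]
          · refine sum_congr rfl fun R _ => ?_
            rw [← pow_add, card_inter_add_card_sdiff]
          · simp only [Sigma.mk.injEq, heq_eq_eq] at h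
            ext f
            have e1 := Finset.ext_iff.1 h.1 f
            have e2 := Finset.ext_iff.1 h.2 f
            simp only [mem_inter, mem_sdiff] at e1 e2
            tauto
        · intro p hp
          obtain ⟨R, hR, rfl⟩ := mem_image.1 hp
          obtain ⟨hRA, hRg⟩ := mem_filter.1 hR
          rw [mem_powerset] at hRA
          refine mem_sigma.2 ⟨mem_powerset.2 inter_subset_right, mem_filter.2
            ⟨mem_powerset.2 (sdiff_subset_sdiff hRA Subset.rfl), fun Q hQ hne => ?_⟩⟩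
          by_contra hcon
          push Not at hcon
          have hv' : ∀ g ∈ Q, v ∉ g := fun g hg hvg => (mem_sdiff.1 (hQ.1 hg)).2
            (mem_filter.2 ⟨hRA (mem_sdiff.1 (hQ.1 hg)).1, hvg⟩)
          obtain ⟨g, hg, w, hw, hwg⟩ := hRg Q ⟨hQ.1.trans sdiff_subset, fun g hg k hk ht =>
            hQ.2 g hg k (mem_sdiff.2 ⟨hk, fun hkAv => by
              obtain ⟨u, hu1, hu2⟩ := ht
              exact hcon g hg u (mem_union_right _ (mem_erase.2 ⟨fun h => hv' g hg (h ▸ hu1),
                mem_verts.2 ⟨k, mem_inter.2 ⟨hk, hkAv⟩, hu2⟩⟩)) hu1⟩) ht⟩ hne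
          exact hcon g hg w (mem_union_left _ (mem_erase.2 ⟨fun h => hv' g hg (h ▸ hwg), hw⟩)) hwg
    _ ≤ ∑ Rv ∈ Av.powerset, x ^ Rv.card * B ^ (W.card - 1 + Rv.card) := by
        rw [sum_sigma]
        refine sum_le_sum fun Rv hRv => ?_
        rw [mem_powerset] at hRv
        simp only [← mul_sum]
        refine mul_le_mul_of_nonneg_left ((ih _ ?_ (A \ Av) (W' Rv) le_rfl fun u => ?_).trans
          (pow_le_pow_right₀ hB (hW'c Rv hRv))) (pow_nonneg hx _)
        · have h1 := hW'c Rv hRv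
          have h2 := card_le_card hRv
          have h3 := card_sdiff_add_card_eq_card (filter_subset (fun f => v ∈ f) A)
          rw [← hAv] at h3
          have := card_pos.2 ⟨v, hv⟩
          omega
        · exact (card_le_card (filter_subset_filter _ sdiff_subset)).trans (hdeg u)
    _ = B ^ (W.card - 1) * (1 + x * B) ^ Av.card := by
        rw [add_comm 1 (x * B), ← Finset.sum_pow_mul_eq_add_pow, mul_sum]
        exact sum_congr rfl fun Rv _ => by rw [pow_add, one_pow, mul_pow]; ring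
    _ ≤ B ^ (W.card - 1) * B := by
        refine mul_le_mul_of_nonneg_left ((pow_le_pow_right₀ ?_ (hdeg v)).trans hΔB) (by positivity)
        linarith [mul_nonneg hx (zero_le_one.trans hB)]
    _ = B ^ W.card := by rw [← pow_succ, Nat.sub_add_cancel (card_pos.2 ⟨v, hv⟩)]

theorem exists_touch {F : Finset (Sym2 V)} (hF : Conn F) (h2 : 2 ≤ F.card) {e : Sym2 V}
    (he : e ∈ F) : ∃ f ∈ F, f ≠ e ∧ Touch e f := by
  by_contra hcon
  push Not at hcon
  have := hF.2 {e} ⟨singleton_subset_iff.2 he, fun g hg k hk ht => by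
    rw [mem_singleton] at hg ⊢
    subst hg
    by_contra hne
    exact hcon k hk hne ht⟩ (singleton_nonempty e)
  rw [← this] at h2
  simp at h2

theorem conn_pair {e f : Sym2 V} (ht : Touch e f) : Conn ({e, f} : Finset (Sym2 V)) := by
  refine ⟨insert_nonempty _ _, fun Q hQ hne => Subset.antisymm hQ.1 ?_⟩
  obtain ⟨g, hg⟩ := hne
  have := hQ.1 hg
  simp only [mem_insert, mem_singleton] at this
  intro k hk
  simp only [mem_insert, mem_singleton] at hk
  rcases this with rfl | rfl <;> rcases hk with rfl | rfl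
  · exact hg
  · exact hQ.2 g hg k (by simp) ht
  · exact hQ.2 g hg k (by simp) ht.symm
  · exact hg

/-- The edges of a closed sequence of vertices. -/
def cyc {k : ℕ} (c : Fin (k + 1) → V) : Finset (Sym2 V) :=
  univ.image fun i => s(c (i - 1), c i)

/-- A cycle with `k + 1` edges in `F`. -/
def CycleIn (F : Finset (Sym2 V)) {k : ℕ} (c : Fin (k + 1) → V) : Prop :=
  2 ≤ k ∧ Function.Injective c ∧ cyc c ⊆ F

theorem cyc_edge_inj {k : ℕ} (hk : 2 ≤ k) {c : Fin (k + 1) → V} (hc : Function.Injective c) :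
    Function.Injective (fun i : Fin (k + 1) => s(c (i - 1), c i)) := by
  intro i j h
  rcases Sym2.eq_iff.1 h with ⟨-, h2⟩ | ⟨h1, h2⟩
  · exact hc h2
  · have a1 := congrArg Fin.val (hc h1)
    have a2 := congrArg Fin.val (hc h2)
    have hi := i.isLt; have hj := j.isLt
    rw [Fin.coe_sub_one] at a1 a2
    apply Fin.ext
    simp only [Fin.ext_iff, Fin.val_zero] at a1 a2
    split_ifs at a1 a2 <;> omega

theorem card_cyc {k : ℕ} (hk : 2 ≤ k) {c : Fin (k + 1) → V} (hc : Function.Injective c) :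
    (cyc c).card = k + 1 := by
  rw [cyc, card_image_of_injective _ (cyc_edge_inj hk hc), card_univ, Fintype.card_fin]

/-- Cycles in bipartite edge sets are even. -/
theorem cycle_even {col : V → Bool} {k : ℕ} {c : Fin (k + 1) → V}
    (h : ∀ u v, s(u, v) ∈ cyc c → col u ≠ col v) : Odd k := by
  have hstep : ∀ i : Fin (k + 1), col (c i) = !col (c (i - 1)) := by
    intro i
    have := h _ _ (mem_image.2 ⟨i, mem_univ i, rfl⟩)
    revert this; cases col (c (i - 1)) <;> cases col (c i) <;> simp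
  have hval : ∀ (m : ℕ) (hm : m < k + 1), col (c ⟨m, hm⟩) = (col (c 0) ^^ decide (Odd m)) := by
    intro m
    induction m with
    | zero => intro _; simp
    | succ m ih =>
      intro hm
      rw [hstep ⟨m + 1, hm⟩, show (⟨m + 1, hm⟩ : Fin (k + 1)) - 1 = ⟨m, by omega⟩ from
        Fin.ext (by rw [Fin.coe_sub_one, if_neg fun h => absurd (congrArg Fin.val h) (Nat.succ_ne_zero m)]; simp), ih (by omega)]
      by_cases ho : Odd m <;> simp [ho, Nat.odd_add_one]
  have h0 := hstep 0
  rw [show (0 : Fin (k + 1)) - 1 = ⟨k, by omega⟩ from Fin.ext (by simp [Fin.coe_neg_one]),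
    hval k (by omega)] at h0
  by_contra ho
  revert h0; simp [ho]

theorem cycle_of_path {F : Finset (Sym2 V)} {p : ℕ → V} {i : ℕ} (hi : 2 ≤ i)
    (hinj : Set.InjOn p (Set.Iic i)) (hF : ∀ l < i, s(p l, p (l + 1)) ∈ F)
    (hclose : s(p i, p 0) ∈ F) :
    ∃ c : Fin (i + 1) → V, CycleIn F c := by
  refine ⟨fun l => p l, hi, fun a b h => Fin.ext (hinj (show (a : ℕ) ≤ i by omega)
    (show (b : ℕ) ≤ i by omega) h), fun e he => ?_⟩
  obtain ⟨l, -, rfl⟩ := mem_image.1 he
  show s(p ((l - 1 : Fin (i + 1)) : ℕ), p (l : ℕ)) ∈ F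
  rw [Fin.coe_sub_one]
  split_ifs with h
  · subst h; simpa using hclose
  · have : 0 < (l : ℕ) := Nat.pos_of_ne_zero fun h' => h (Fin.ext h')
    have := hF ((l : ℕ) - 1) (by omega)
    rwa [Nat.sub_add_cancel (by omega)] at this

open scoped Classical in
/-- A connected set of at least two edges has two leaf edges or contains a cycle. -/
theorem leaves_or_cycle {F : Finset (Sym2 V)} (hF : Conn F) (h2 : 2 ≤ F.card)
    (hloop : ∀ e ∈ F, ¬ e.IsDiag) :
    (∃ u v p q, u ≠ v ∧ s(u, p) ≠ s(v, q) ∧ (F.filter fun e => u ∈ e) = {s(u, p)} ∧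
      (F.filter fun e => v ∈ e) = {s(v, q)}) ∨
    ∃ (k : ℕ) (c : Fin (k + 1) → V), CycleIn F c := by
  set PathLen : ℕ → Prop := fun n => ∃ p : ℕ → V, Set.InjOn p (Set.Iic n) ∧
    ∀ l < n, s(p l, p (l + 1)) ∈ F with hPL
  have hb : ∀ n, PathLen n → n ≤ Fintype.card V := by
    rintro n ⟨p, hp, -⟩
    have : (Finset.range (n + 1)).card ≤ (univ : Finset V).card :=
      card_le_card_of_injOn p (fun _ _ => mem_univ _) fun a ha b hb h =>
        hp (show a ≤ n by simp at ha; omega) (show b ≤ n by simp at hb; omega) h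
    rw [card_range, card_univ] at this
    omega
  obtain ⟨e, he⟩ := hF.1
  obtain ⟨f, hf, hfe, ⟨w, hwe, hwf⟩⟩ := exists_touch hF h2 he
  obtain ⟨u0, rfl⟩ : ∃ u, e = s(w, u) := ⟨_, (Sym2.other_spec hwe).symm⟩
  obtain ⟨v0, rfl⟩ : ∃ v, f = s(w, v) := ⟨_, (Sym2.other_spec hwf).symm⟩
  have hu0 : u0 ≠ w := fun h => hloop _ he (by simp [h])
  have hv0 : v0 ≠ w := fun h => hloop _ hf (by simp [h])
  have huv : u0 ≠ v0 := fun h => hfe (by rw [h])
  have h2p : PathLen 2 := by
    refine ⟨fun l => if l = 0 then u0 else if l = 1 then w else v0, fun a ha b hb h => ?_,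
      fun l hl => ?_⟩
    · simp only [Set.mem_Iic] at ha hb
      interval_cases a <;> interval_cases b <;>
        simp_all [eq_comm]
    · interval_cases l
      · simpa [Sym2.eq_swap] using he
      · simpa using hf
  set n := Nat.findGreatest PathLen (Fintype.card V) with hn
  have hn2 : 2 ≤ n := Nat.le_findGreatest (hb _ h2p) h2p
  obtain ⟨p, hp, hpe⟩ := Nat.findGreatest_spec (P := PathLen) (hb _ h2p) h2p
  have hmax : ∀ q : ℕ → V, Set.InjOn q (Set.Iic (n + 1)) →
      (∀ l < n + 1, s(q l, q (l + 1)) ∈ F) → False := fun q h h' => by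
    have := Nat.le_findGreatest (P := PathLen) (hb (n + 1) ⟨q, h, h'⟩) ⟨q, h, h'⟩
    rw [← hn] at this
    omega
  -- either an end is a leaf or it closes a cycle
  have hend : ∀ q : ℕ → V, Set.InjOn q (Set.Iic n) → (∀ l < n, s(q l, q (l + 1)) ∈ F) →
      (F.filter fun e => q 0 ∈ e) = {s(q 0, q 1)} ∨
        ∃ (k : ℕ) (c : Fin (k + 1) → V), CycleIn F c := by
    intro q hq hqe
    have h01 : s(q 0, q 1) ∈ F := hqe 0 (by omega)
    by_cases hall : ∀ g ∈ F, q 0 ∈ g → g = s(q 0, q 1)
    · exact Or.inl (eq_singleton_iff_unique_mem.2 ⟨mem_filter.2 ⟨h01, Sym2.mem_mk_left _ _⟩,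
        fun g hg => hall g (mem_filter.1 hg).1 (mem_filter.1 hg).2⟩)
    push Not at hall
    obtain ⟨g, hg, hqg, hne⟩ := hall
    obtain ⟨x, rfl⟩ : ∃ x, g = s(q 0, x) := ⟨_, (Sym2.other_spec hqg).symm⟩
    by_cases hx : ∃ i ≤ n, q i = x
    · obtain ⟨i, hin, rfl⟩ := hx
      have hi2 : 2 ≤ i := by
        rcases i with _ | _ | i
        · exact absurd (by simp) (hloop _ hg)
        · exact absurd rfl hne
        · omega
      exact Or.inr ⟨i, cycle_of_path hi2 (hq.mono fun a ha => le_trans ha hin)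
        (fun l hl => hqe l (by omega)) (by rwa [Sym2.eq_swap])⟩
    push Not at hx
    refine (hmax (fun l => if l = 0 then x else q (l - 1)) (fun a ha b hb h => ?_)
      (fun l hl => ?_)).elim
    · simp only [Set.mem_Iic] at ha hb
      rcases a with _ | a <;> rcases b with _ | b <;> simp at h
      · rfl
      · exact absurd h.symm (hx b (by omega))
      · exact absurd h (hx a (by omega))
      · have := hq (show a ≤ n by omega) (show b ≤ n by omega) h; omega
    · rcases l with _ | l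
      · simpa [Sym2.eq_swap] using hg
      · simpa using hqe l (by omega)
  rcases hend p hp hpe with h0 | h0
  swap
  · exact Or.inr h0
  rcases hend (fun l => p (n - l)) (fun a ha b hb h => by
      simp only [Set.mem_Iic] at ha hb
      have := hp (show n - a ≤ n by omega) (show n - b ≤ n by omega) h
      omega)
    (fun l hl => by
      have := hpe (n - (l + 1)) (by omega)
      rw [show n - (l + 1) + 1 = n - l by omega] at this
      rwa [Sym2.eq_swap]) with h1 | h1
  swap
  · exact Or.inr h1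
  simp only [Nat.sub_zero] at h1
  refine Or.inl ⟨p 0, p n, p 1, p (n - 1), fun h => ?_, fun h => ?_, h0, h1⟩
  · have := hp (show 0 ≤ n by omega) (show n ≤ n from le_rfl) h; omega
  · rcases Sym2.eq_iff.1 h with ⟨h3, -⟩ | ⟨-, h4⟩
    · have := hp (show 0 ≤ n by omega) (show n ≤ n from le_rfl) h3; omega
    · have := hp (show 1 ≤ n by omega) (show n ≤ n from le_rfl) h4; omega

/-- A shortest cycle has no chord. -/
theorem chordless {F : Finset (Sym2 V)} {k : ℕ} {c : Fin (k + 1) → V} (hc : CycleIn F c)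
    (hmin : ∀ (k' : ℕ) (c' : Fin (k' + 1) → V), CycleIn F c' → k ≤ k') {a b : Fin (k + 1)}
    (hab : s(c a, c b) ∈ F) (hne : a ≠ b) : s(c a, c b) ∈ cyc c := by
  wlog hlt : (a : ℕ) < b generalizing a b
  · rw [Sym2.eq_swap]
    exact this (by rwa [Sym2.eq_swap]) hne.symm
      (lt_of_le_of_ne (not_lt.1 hlt) fun h => hne (Fin.ext h).symm)
  have hedge : ∀ i : Fin (k + 1), s(c (i - 1), c i) ∈ F :=
    fun i => hc.2.2 (mem_image.2 ⟨i, mem_univ i, rfl⟩)
  by_cases h1 : (b : ℕ) = a + 1
  · refine mem_image.2 ⟨b, mem_univ b, ?_⟩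
    rw [show b - 1 = a from Fin.ext (by
      rw [Fin.coe_sub_one, if_neg fun h => ?_]
      · omega
      · have := congrArg Fin.val h; simp only [Fin.val_zero] at this; omega)]
  by_cases h2 : (a : ℕ) = 0 ∧ (b : ℕ) = k
  · refine mem_image.2 ⟨a, mem_univ a, ?_⟩
    rw [show a - 1 = b from Fin.ext (by
      rw [Fin.coe_sub_one, if_pos (Fin.ext (by simpa using h2.1))]; omega)]
    exact Sym2.eq_swap
  have hb := b.isLt
  set p : ℕ → V := fun l => if h : (a : ℕ) + l < k + 1 then c ⟨a + l, h⟩ else c a with hp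
  obtain ⟨c', hc'⟩ := cycle_of_path (F := F) (p := p) (i := (b : ℕ) - a) (by omega)
    (fun x hx y hy h => by
      simp only [Set.mem_Iic] at hx hy
      simp only [hp, dif_pos (show (a : ℕ) + x < k + 1 by omega),
        dif_pos (show (a : ℕ) + y < k + 1 by omega)] at h
      have := congrArg Fin.val (hc.2.1 h)
      simp only at this
      omega)
    (fun l hl => by
      simp only [hp, dif_pos (show (a : ℕ) + l < k + 1 by omega),
        dif_pos (show (a : ℕ) + (l + 1) < k + 1 by omega)]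
      convert hedge ⟨a + (l + 1), by omega⟩ using 3
      refine Fin.ext ?_
      rw [Fin.coe_sub_one, if_neg fun h => ?_]
      · simp
      · have := congrArg Fin.val h; simp only [Fin.val_zero] at this; omega)
    (by
      simp only [hp, dif_pos (show (a : ℕ) + ((b : ℕ) - a) < k + 1 by omega), Nat.add_zero,
        dif_pos a.isLt]
      rw [Sym2.eq_swap]
      convert hab using 3
      exact Fin.ext (by simp; omega))
  have := hmin _ c' hc'
  omega

end Vale.Agent.P050
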