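import Vale.Agent.P050.Trace
import Vale.Agent.P050.Grow

/-! Averages over maps of the vertices and the weights of connected edge sets. -/

namespace Vale.Agent.P050

open Finset Matrix

set_option linter.unusedSectionVars false

variable {V X : Type*} [Fintype V] [DecidableEq V] [Fintype X] [DecidableEq X]

/-- The average over all maps. -/
noncomputable def av (f : (V → X) → ℝ) : ℝ := (∑ φ, f φ) / Fintype.card (V → X)

/-- `f` looks only at the values on `S`. -/
def OnlyOn (f : (V → X) → ℝ) (S : Finset V) : Prop :=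
  ∀ φ ψ, (∀ v ∈ S, φ v = ψ v) → f φ = f ψ

theorem av_mono {f g : (V → X) → ℝ} (h : ∀ φ, f φ ≤ g φ) : av f ≤ av g :=
  div_le_div_of_nonneg_right (sum_le_sum fun φ _ => h φ) (Nat.cast_nonneg _)

theorem abs_av_le (f : (V → X) → ℝ) : |av f| ≤ av fun φ => |f φ| := by
  rw [av, av, abs_div, Nat.abs_cast]
  exact div_le_div_of_nonneg_right (abs_sum_le_sum_abs _ _) (Nat.cast_nonneg _)

theorem av_sum {ι : Type*} (s : Finset ι) (f : ι → (V → X) → ℝ) :
    av (fun φ => ∑ i ∈ s, f i φ) = ∑ i ∈ s, av (f i) := by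
  simp only [av, sum_div]; rw [sum_comm]

theorem av_const_mul (k : ℝ) (f : (V → X) → ℝ) : av (fun φ => k * f φ) = k * av f := by
  simp only [av, ← mul_sum]; rw [mul_div_assoc]

theorem av_const [Nonempty X] (k : ℝ) : av (fun _ : V → X => k) = k := by
  simp only [av, sum_const, card_univ, nsmul_eq_mul]
  field_simp

theorem av_mul [Nonempty X] {f g : (V → X) → ℝ} {S T : Finset V} (hf : OnlyOn f S) (hg : OnlyOn g T)
    (h : Disjoint S T) : av (fun φ => f φ * g φ) = av f * av g := by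
  set mix : (V → X) × (V → X) → (V → X) × (V → X) := fun p =>
    (fun v => if v ∈ S then p.1 v else p.2 v, fun v => if v ∈ S then p.2 v else p.1 v) with hmix
  have hinv : Function.Involutive mix := fun p => by
    apply Prod.ext <;> funext v <;> simp only [hmix] <;> split_ifs <;> rfl
  have e : (∑ φ, f φ) * ∑ ψ, g ψ = Fintype.card (V → X) * ∑ φ, f φ * g φ := by
    rw [sum_mul_sum, ← Fintype.sum_prod_type', ← Equiv.sum_comp (hinv.toPerm mix), Fintype.sum_prod_type,
      mul_sum]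
    refine sum_congr rfl fun φ _ => ?_
    have : ∀ ψ : V → X, f (fun v => if v ∈ S then φ v else ψ v) * g (fun v => if v ∈ S then ψ v else φ v)
        = f φ * g φ := fun ψ => by
      rw [hf _ φ fun v hv => if_pos hv, hg _ φ fun v hv => if_neg (disjoint_right.1 h hv)]
    show ∑ ψ, f (mix (φ, ψ)).1 * g (mix (φ, ψ)).2 = _
    simp only [hmix, this, sum_const, card_univ, nsmul_eq_mul]
  simp only [av]
  rw [div_mul_div_comm, e]
  field_simp

/-- `φ` with the values along `c` replaced by `z`. -/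
noncomputable def ov {n : ℕ} (c : Fin n → V) (φ : V → X) (z : Fin n → X) : V → X :=
  Function.extend c z φ

theorem av_over [Nonempty X] {n : ℕ} {c : Fin n → V} (hc : Function.Injective c)
    (F : (V → X) → ℝ) :
    av F = av fun φ => (∑ z, F (ov c φ z)) / (Fintype.card X : ℝ) ^ n := by
  classical
  set T : (V → X) × (Fin n → X) → (V → X) × (Fin n → X) := fun p => (ov c p.1 p.2, p.1 ∘ c) with hT
  have hinv : Function.Involutive T := fun p => by
    apply Prod.ext
    · funext v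
      simp only [hT, ov]
      by_cases hv : ∃ i, c i = v
      · obtain ⟨i, rfl⟩ := hv
        rw [hc.extend_apply]; rfl
      · rw [Function.extend_apply' _ _ _ hv, Function.extend_apply' _ _ _ hv]
    · funext i
      simp only [hT, ov, Function.comp]
      rw [hc.extend_apply]
  have e : ∑ φ, ∑ z, F (ov c φ z) = (Fintype.card X : ℝ) ^ n * ∑ φ, F φ := by
    rw [← Fintype.sum_prod_type']
    show ∑ p, F (T p).1 = _
    rw [show (fun p => F (T p).1) = (fun q => F q.1) ∘ T from rfl]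
    refine (Equiv.sum_comp (hinv.toPerm T) (fun q : (V → X) × (Fin n → X) => F q.1)).trans ?_
    rw [Fintype.sum_prod_type, mul_sum]
    exact sum_congr rfl fun φ _ => by simp
  simp only [av, ← sum_div, e]
  field_simp

theorem av_site [Nonempty X] (u : V) (F : (V → X) → ℝ) :
    av F = av fun φ => (∑ x, F (Function.update φ u x)) / Fintype.card X := by
  have hc : Function.Injective (fun _ : Fin 1 => u) := fun a b _ => Subsingleton.elim a b
  refine (av_over hc F).trans (congrArg av (funext fun φ => ?_))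
  rw [pow_one, ← (Equiv.funUnique (Fin 1) X).symm.sum_comp]
  congr 1
  refine sum_congr rfl fun x _ => congrArg F (funext fun v => ?_)
  by_cases hv : v = u
  · subst hv
    rw [Function.update_self, ov]
    exact hc.extend_apply _ _ 0
  · rw [Function.update_of_ne hv, ov, Function.extend_apply']
    rintro ⟨i, rfl⟩; exact hv rfl

theorem av_apply [Nonempty X] (v : V) (h : X → ℝ) :
    av (fun φ : V → X => h (φ v)) = (∑ x, h x) / Fintype.card X := by
  rw [av_site v]; simp [av_const]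

variable (U : X → X → ℝ)

/-- The weight of an edge. -/
noncomputable def ew (φ : V → X) : Sym2 V → ℝ :=
  Sym2.lift ⟨fun u v => (U (φ u) (φ v) + U (φ v) (φ u)) / 2, fun _ _ => by ring⟩

/-- The integral of the product over a set of edges. -/
noncomputable def wt (F : Finset (Sym2 V)) : ℝ := av fun φ : V → X => ∏ e ∈ F, ew U φ e

/-- The degree function. -/
noncomputable def fU (x : X) : ℝ := (∑ y, U x y) / Fintype.card X

/-- Its square mean. -/
noncomputable def m2 : ℝ := (∑ x, fU U x ^ 2) / Fintype.card X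

/-- The normalised matrix. -/
noncomputable def mat : Matrix X X ℝ := Matrix.of fun x y => U x y / Fintype.card X

variable {U}

theorem ew_congr {e : Sym2 V} {φ ψ : V → X} (h : ∀ v ∈ e, φ v = ψ v) : ew U φ e = ew U ψ e := by
  induction e using Sym2.ind with
  | _ a b => simp [ew, h a (Sym2.mem_mk_left _ _), h b (Sym2.mem_mk_right _ _)]

theorem ew_mk (hU : ∀ x y, U x y = U y x) (φ : V → X) (a b : V) :
    ew U φ s(a, b) = U (φ a) (φ b) := by
  rw [ew, Sym2.lift_mk]; linarith [hU (φ a) (φ b)]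

theorem abs_ew_le {a : ℝ} (hb : ∀ x y, |U x y| ≤ a) (φ : V → X) (e : Sym2 V) :
    |ew U φ e| ≤ a := by
  induction e using Sym2.ind with
  | _ u v =>
    rw [ew, Sym2.lift_mk, abs_le]
    have := abs_le.1 (hb (φ u) (φ v))
    have := abs_le.1 (hb (φ v) (φ u))
    constructor <;> linarith

theorem abs_prod_ew_le {a : ℝ} (hb : ∀ x y, |U x y| ≤ a) (φ : V → X) (F : Finset (Sym2 V)) :
    |∏ e ∈ F, ew U φ e| ≤ a ^ F.card := by
  rw [Finset.abs_prod]
  exact (prod_le_prod (fun e _ => abs_nonneg _) fun e _ => abs_ew_le hb φ e).trans (le_of_eq (by simp))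

theorem onlyOn_prod (g : ℝ → ℝ) (F : Finset (Sym2 V)) :
    OnlyOn (fun φ : V → X => ∏ e ∈ F, g (ew U φ e)) (verts F) := fun φ ψ h =>
  prod_congr rfl fun e he => by rw [ew_congr fun v hv => h v (mem_verts.2 ⟨e, he, hv⟩)]

theorem leaf_step [Nonempty X] (hU : ∀ x y, U x y = U y x) {u p : V} (hup : p ≠ u)
    {G : (V → X) → ℝ} (hG : ∀ φ x, G (Function.update φ u x) = G φ) :
    av (fun φ => G φ * U (φ u) (φ p)) = av fun φ => G φ * fU U (φ p) := by
  rw [av_site u]
  refine congrArg av (funext fun φ => ?_)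
  simp only [hG, Function.update_self, Function.update_of_ne hup, fU, ← mul_sum]
  rw [mul_div_assoc]
  simp only [hU (φ p)]

theorem wt_leaf_pair [Nonempty X] (hU : ∀ x y, U x y = U y x) {F : Finset (Sym2 V)}
    (hloop : ∀ e ∈ F, ¬ e.IsDiag) {u v p q : V} (huv : u ≠ v) (hne : s(u, p) ≠ s(v, q))
    (hu : (F.filter fun e => u ∈ e) = {s(u, p)}) (hv : (F.filter fun e => v ∈ e) = {s(v, q)}) :
    wt U F = av fun φ : V → X => (∏ e ∈ (F.erase s(u, p)).erase s(v, q), ew U φ e)
      * fU U (φ p) * fU U (φ q) := by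
  have h1 : s(u, p) ∈ F ∧ ∀ e ∈ F, u ∈ e → e = s(u, p) := by
    obtain ⟨h, h'⟩ := eq_singleton_iff_unique_mem.1 hu
    exact ⟨(mem_filter.1 h).1, fun e he hue => h' e (mem_filter.2 ⟨he, hue⟩)⟩
  have h2 : s(v, q) ∈ F ∧ ∀ e ∈ F, v ∈ e → e = s(v, q) := by
    obtain ⟨h, h'⟩ := eq_singleton_iff_unique_mem.1 hv
    exact ⟨(mem_filter.1 h).1, fun e he hue => h' e (mem_filter.2 ⟨he, hue⟩)⟩
  have hpu : p ≠ u := fun h => hloop _ h1.1 (by simp [h])
  have hqv : q ≠ v := fun h => hloop _ h2.1 (by simp [h])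
  have hpv : p ≠ v := fun h => hne (h2.2 _ h1.1 (h ▸ Sym2.mem_mk_right _ _))
  have hqu : q ≠ u := fun h => hne (h1.2 _ h2.1 (h ▸ Sym2.mem_mk_right _ _)).symm
  set R := (F.erase s(u, p)).erase s(v, q) with hR
  have hRu : ∀ e ∈ R, u ∉ e := fun e he hue => by
    simp only [hR, mem_erase] at he
    exact he.2.1 (h1.2 e he.2.2 hue)
  have hRv : ∀ e ∈ R, v ∉ e := fun e he hve => by
    simp only [hR, mem_erase] at he
    exact he.1 (h2.2 e he.2.2 hve)
  have hRup : ∀ w, (∀ e ∈ R, w ∉ e) → ∀ (φ : V → X) x,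
      ∏ e ∈ R, ew U (Function.update φ w x) e = ∏ e ∈ R, ew U φ e := fun w hw φ x =>
    prod_congr rfl fun e he => ew_congr fun z hz =>
      Function.update_of_ne (fun h => hw e he (by rwa [h] at hz)) _ _
  have hsplit : ∀ φ : V → X, ∏ e ∈ F, ew U φ e
      = ((∏ e ∈ R, ew U φ e) * U (φ v) (φ q)) * U (φ u) (φ p) := fun φ => by
    rw [← mul_prod_erase F _ h1.1, ← mul_prod_erase (F.erase s(u, p)) _
      (mem_erase.2 ⟨hne.symm, h2.1⟩), ew_mk hU, ew_mk hU, ← hR]
    ring
  simp only [wt, hsplit]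
  rw [leaf_step hU hpu fun φ x => by
    rw [hRup u hRu, Function.update_of_ne huv.symm, Function.update_of_ne hqu]]
  simp only [mul_right_comm _ (U (_ : X) _)]
  rw [leaf_step hU hqv (G := fun φ => (∏ e ∈ R, ew U φ e) * fU U (φ p)) fun φ x => by
    rw [hRup v hRv, Function.update_of_ne hpv]]

theorem abs_wt_leaves [Nonempty X] (hU : ∀ x y, U x y = U y x) {a : ℝ} (ha : 0 ≤ a)
    (hb : ∀ x y, |U x y| ≤ a) {F : Finset (Sym2 V)}
    (hloop : ∀ e ∈ F, ¬ e.IsDiag) {u v p q : V} (huv : u ≠ v) (hne : s(u, p) ≠ s(v, q))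
    (hu : (F.filter fun e => u ∈ e) = {s(u, p)}) (hv : (F.filter fun e => v ∈ e) = {s(v, q)}) :
    |wt U F| ≤ a ^ (F.card - 2) * m2 U := by
  rw [wt_leaf_pair hU hloop huv hne hu hv]
  set R := (F.erase s(u, p)).erase s(v, q)
  have hc : R.card = F.card - 2 := by
    have h1 : s(u, p) ∈ F :=
      (mem_filter.1 (hu.symm ▸ mem_singleton_self _ : s(u, p) ∈ F.filter fun e => u ∈ e)).1
    have h2 : s(v, q) ∈ F :=
      (mem_filter.1 (hv.symm ▸ mem_singleton_self _ : s(v, q) ∈ F.filter fun e => v ∈ e)).1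
    rw [card_erase_of_mem (mem_erase.2 ⟨hne.symm, h2⟩), card_erase_of_mem h1]
    omega
  refine (abs_av_le _).trans ((av_mono (g := fun φ => a ^ (F.card - 2) *
    ((fU U (φ p) ^ 2 + fU U (φ q) ^ 2) / 2)) fun φ => ?_).trans (le_of_eq ?_))
  · rw [mul_assoc, abs_mul, abs_mul, ← hc]
    refine mul_le_mul (abs_prod_ew_le hb φ R) ?_ (by positivity) (by positivity)
    nlinarith [sq_nonneg (|fU U (φ p)| - |fU U (φ q)|), sq_abs (fU U (φ p)), sq_abs (fU U (φ q))]
  · rw [av_const_mul]
    congr 1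
    have hp : av (fun φ : V → X => fU U (φ p) ^ 2) = m2 U := av_apply p fun x => fU U x ^ 2
    have hq : av (fun φ : V → X => fU U (φ q) ^ 2) = m2 U := av_apply q fun x => fU U x ^ 2
    simp only [av] at hp hq ⊢
    rw [← sum_div, sum_add_distrib, div_div, mul_comm (2 : ℝ), ← div_div, add_div, hp, hq]
    ring

theorem wt_cherry [Nonempty X] (hU : ∀ x y, U x y = U y x) {e f : Sym2 V} (hef : e ≠ f)
    (he : ¬ e.IsDiag) (hf : ¬ f.IsDiag) (ht : Touch e f) : wt U ({e, f} : Finset (Sym2 V)) = m2 U := by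
  obtain ⟨p, hpe, hpf⟩ := ht
  obtain ⟨u, rfl⟩ : ∃ u, e = s(u, p) := ⟨_, (Sym2.other_spec hpe).symm.trans Sym2.eq_swap⟩
  obtain ⟨v, rfl⟩ : ∃ v, f = s(v, p) := ⟨_, (Sym2.other_spec hpf).symm.trans Sym2.eq_swap⟩
  have huv : u ≠ v := fun h => hef (by rw [h])
  have hu : u ≠ p := fun h => he (by simp [h])
  have hv : v ≠ p := fun h => hf (by simp [h])
  rw [wt_leaf_pair hU (p := p) (q := p) (by simp [he, hf]) huv hef
    (eq_singleton_iff_unique_mem.2 ⟨by simp, by
      simp only [mem_filter, mem_insert, mem_singleton]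
      rintro g ⟨rfl | rfl, hg⟩
      · rfl
      · simp [huv, hu] at hg⟩)
    (eq_singleton_iff_unique_mem.2 ⟨by simp, by
      simp only [mem_filter, mem_insert, mem_singleton]
      rintro g ⟨rfl | rfl, hg⟩
      · simp [huv.symm, hv] at hg
      · rfl⟩)]
  have : (({s(u, p), s(v, p)} : Finset (Sym2 V)).erase s(u, p)).erase s(v, p) = ∅ := by
    ext; simp; tauto
  simp only [this, prod_empty, one_mul, ← pow_two]
  exact av_apply p fun x => fU U x ^ 2

theorem wt_single [Nonempty X] (hU : ∀ x y, U x y = U y x) (h0 : ∑ x, ∑ y, U x y = 0)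
    {e : Sym2 V} (he : ¬ e.IsDiag) : wt U ({e} : Finset (Sym2 V)) = 0 := by
  induction e using Sym2.ind with
  | _ u p =>
    have hup : p ≠ u := fun h => he (by simp [h])
    have h := leaf_step (V := V) hU hup (G := fun _ : V → X => (1 : ℝ)) fun _ _ => rfl
    simp only [one_mul] at h
    simp only [wt, prod_singleton, ew_mk hU, h]
    refine (av_apply p (fU U)).trans ?_
    simp [fU, ← sum_div, h0]

theorem mat_symm (hU : ∀ x y, U x y = U y x) : (mat U).IsSymm :=
  Matrix.IsSymm.ext fun x y => by simp [mat, hU x y]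

theorem abs_mat_le {a : ℝ} (hb : ∀ x y, |U x y| ≤ a) (x y : X) :
    |mat U x y| ≤ a / Fintype.card X := by
  simp only [mat, of_apply, abs_div, Nat.abs_cast]
  exact div_le_div_of_nonneg_right (hb x y) (Nat.cast_nonneg _)

theorem abs_sum_cycle_le' (hU : ∀ x y, U x y = U y x) {n j : ℕ} [NeZero n] (hn : n = 2 * j)
    (g : Fin n → X → ℝ) (hg : ∀ i x, |g i x| ≤ 1) :
    |∑ z : Fin n → X, ∏ i, mat U (z (i - 1)) (z i) * g i (z i)| ≤ trace (mat U ^ n) := by
  subst hn
  exact abs_sum_cycle_le (mat_symm hU) (by have := NeZero.ne (2 * j); omega) g hg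

theorem wt_cyc_expand [Nonempty X] (hU : ∀ x y, U x y = U y x) {F : Finset (Sym2 V)} {k : ℕ}
    {c : Fin (k + 1) → V} (hc : CycleIn F c)
    (hch : ∀ a b, s(c a, c b) ∈ F → a ≠ b → s(c a, c b) ∈ cyc c) :
    wt U F = av fun φ : V → X => (∏ e ∈ (F \ cyc c) with ∀ i, c i ∉ e, ew U φ e) *
      ∑ z : Fin (k + 1) → X, ∏ i, mat U (z (i - 1)) (z i) *
        ∏ e ∈ (F \ cyc c) with c i ∈ e, ew U (Function.update φ (c i) (z i)) e := by
  classical
  rw [wt, av_over hc.2.1]
  refine congrArg av (funext fun φ => ?_)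
  rw [sum_div, mul_sum]
  refine sum_congr rfl fun z _ => ?_
  have hov : ∀ i, ov c φ z (c i) = z i := fun i => hc.2.1.extend_apply _ _ i
  have hout : ∀ v, (∀ i, c i ≠ v) → ov c φ z v = φ v := fun v hv =>
    Function.extend_apply' _ _ _ fun ⟨i, hi⟩ => hv i hi
  rw [← prod_sdiff hc.2.2, cyc, prod_image (cyc_edge_inj hc.1 hc.2.1).injOn, ← cyc,
    ← prod_filter_mul_prod_filter_not (F \ cyc c) (fun e => ∀ i, c i ∉ e),
    show ((F \ cyc c).filter fun e => ¬ ∀ i, c i ∉ e)
      = univ.biUnion fun i => (F \ cyc c).filter fun e => c i ∈ e by ext; simp,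
    prod_biUnion (fun i _ i' _ hii => disjoint_left.2 fun e he he' => by
      simp only [mem_filter] at he he'
      have : e = s(c i, c i') := (Sym2.mem_and_mem_iff fun h => hii (hc.2.1 h)).1 ⟨he.2, he'.2⟩
      subst this
      exact (mem_sdiff.1 he.1).2 (hch i i' (mem_sdiff.1 he.1).1 hii)), prod_mul_distrib]
  have e0 : ∏ e ∈ (F \ cyc c) with ∀ i, c i ∉ e, ew U (ov c φ z) e
      = ∏ e ∈ (F \ cyc c) with ∀ i, c i ∉ e, ew U φ e :=
    prod_congr rfl fun e he => ew_congr fun v hv =>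
      hout v fun i hi => (mem_filter.1 he).2 i (hi ▸ hv)
  rw [e0]
  have e1 : ∀ i, ∏ e ∈ (F \ cyc c) with c i ∈ e, ew U (ov c φ z) e
      = ∏ e ∈ (F \ cyc c) with c i ∈ e, ew U (Function.update φ (c i) (z i)) e := fun i =>
    prod_congr rfl fun e he => ew_congr fun v hv => by
      simp only [mem_filter] at he
      by_cases hvi : v = c i
      · rw [hvi, Function.update_self, hov]
      · rw [Function.update_of_ne hvi, hout v fun i' hi' => ?_]
        have hii : i ≠ i' := fun h => hvi (by rw [← hi', h])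
        have : e = s(c i, c i') :=
          (Sym2.mem_and_mem_iff fun h => hii (hc.2.1 h)).1 ⟨he.2, hi' ▸ hv⟩
        subst this
        exact (mem_sdiff.1 he.1).2 (hch i i' (mem_sdiff.1 he.1).1 hii)
  simp only [e1, ew_mk hU, hov, mat, of_apply, prod_div_distrib, prod_const, card_univ,
    Fintype.card_fin]
  ring

theorem abs_wt_cycle [Nonempty X] (hU : ∀ x y, U x y = U y x) {a : ℝ} (ha : 0 < a)
    (hb : ∀ x y, |U x y| ≤ a) {F : Finset (Sym2 V)} {k j : ℕ} (hk : k + 1 = 2 * j)
    {c : Fin (k + 1) → V} (hc : CycleIn F c)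
    (hch : ∀ a b, s(c a, c b) ∈ F → a ≠ b → s(c a, c b) ∈ cyc c) :
    |wt U F| ≤ a ^ (F.card - (k + 1)) * trace (mat U ^ (k + 1)) := by
  classical
  rw [wt_cyc_expand hU hc hch]
  refine (abs_av_le _).trans ((av_mono fun φ => ?_).trans (le_of_eq (av_const _)))
  set R := F \ cyc c
  set R0 := R.filter fun e => ∀ i, c i ∉ e
  set Ri : Fin (k + 1) → Finset (Sym2 V) := fun i => R.filter fun e => c i ∈ e
  set g : Fin (k + 1) → X → ℝ := fun i x =>
    (∏ e ∈ Ri i, ew U (Function.update φ (c i) x) e) / a ^ (Ri i).card with hgdef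
  have hg : ∀ i x, |g i x| ≤ 1 := fun i x => by
    rw [hgdef, abs_div, abs_of_pos (pow_pos ha _), div_le_one (pow_pos ha _)]
    exact abs_prod_ew_le hb _ _
  have hcard : R0.card + ∑ i, (Ri i).card = F.card - (k + 1) := by
    rw [show F.card - (k + 1) = R.card by rw [card_sdiff_of_subset hc.2.2, card_cyc hc.1 hc.2.1],
      ← card_biUnion (fun i _ i' _ hii => disjoint_left.2 fun e he he' => by
      simp only [Ri, mem_filter] at he he'
      have : e = s(c i, c i') := (Sym2.mem_and_mem_iff fun h => hii (hc.2.1 h)).1 ⟨he.2, he'.2⟩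
      subst this
      exact (mem_sdiff.1 he.1).2 (hch i i' (mem_sdiff.1 he.1).1 hii)),
      show univ.biUnion Ri = R.filter fun e => ¬ ∀ i, c i ∉ e by ext; simp [Ri]]
    exact Finset.card_filter_add_card_filter_not _
  have heq : (∑ z : Fin (k + 1) → X, ∏ i, mat U (z (i - 1)) (z i) *
        ∏ e ∈ Ri i, ew U (Function.update φ (c i) (z i)) e)
      = a ^ (∑ i, (Ri i).card) *
        ∑ z : Fin (k + 1) → X, ∏ i, mat U (z (i - 1)) (z i) * g i (z i) := by
    rw [mul_sum]
    refine sum_congr rfl fun z _ => ?_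
    rw [← prod_pow_eq_pow_sum, ← prod_mul_distrib]
    refine prod_congr rfl fun i _ => ?_
    rw [hgdef]
    field_simp
  rw [heq, abs_mul, abs_mul, abs_of_pos (pow_pos ha _), ← hcard, pow_add, mul_assoc]
  refine mul_le_mul (abs_prod_ew_le hb φ R0) ?_ (by positivity) (by positivity)
  exact mul_le_mul_of_nonneg_left (abs_sum_cycle_le' hU hk g hg) (by positivity)

theorem wt_cyc [Nonempty X] (hU : ∀ x y, U x y = U y x) {k : ℕ} {c : Fin (k + 1) → V}
    (hk : 2 ≤ k) (hc : Function.Injective c) : wt U (cyc c) = trace (mat U ^ (k + 1)) := by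
  rw [wt_cyc_expand (c := c) hU ⟨hk, hc, Subset.rfl⟩ fun _ _ h _ => h]
  simp only [Finset.sdiff_self, filter_empty, prod_empty, one_mul, mul_one, av_const]
  rw [← word_one, trace_word]
  simp

end Vale.Agent.P050
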