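import Vale.Agent.P050.Avg

/-! The local inequality. -/

namespace Vale.Agent.P050

open Finset Matrix

set_option linter.unusedSectionVars false

variable {V X : Type*} [Fintype V] [DecidableEq V] [Fintype X] [DecidableEq X]
  {U : X → X → ℝ} {E : Finset (Sym2 V)}

/-- The interpolating homomorphism density. -/
noncomputable def Z (U : X → X → ℝ) (E : Finset (Sym2 V)) (s : ℝ) : ℝ :=
  av fun φ : V → X => ∏ e ∈ E, (1 + s * ew U φ e)

theorem hasDerivAt_Z [Nonempty X] (E : Finset (Sym2 V)) (s : ℝ) :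
    HasDerivAt (Z U E)
      (∑ F ∈ conns E, (F.card : ℝ) * s ^ (F.card - 1) * (wt U F * Z U (off E F) s)) s := by
  classical
  have h1 : HasDerivAt (Z U E)
      (av fun φ : V → X => ∑ e ∈ E, (∏ f ∈ E.erase e, (1 + s * ew U φ f)) * ew U φ e) s := by
    unfold Z av
    refine HasDerivAt.div_const (HasDerivAt.fun_sum fun φ _ => ?_) _
    have h := HasDerivAt.fun_finsetProd (u := E) (f := fun e (t : ℝ) => 1 + t * ew U φ e)
      (f' := fun e => ew U φ e) (x := s)
      (fun e _ => by simpa using ((hasDerivAt_id s).mul_const (ew U φ e)).const_add 1)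
    simpa [smul_eq_mul] using h
  refine h1.congr_deriv ?_
  rw [av_sum]
  have h2 : ∀ e ∈ E, av (fun φ : V → X => (∏ f ∈ E.erase e, (1 + s * ew U φ f)) * ew U φ e)
      = ∑ F ∈ conns E with e ∈ F, s ^ (F.card - 1) * (wt U F * Z U (off E F) s) := by
    intro e he
    have hp : ∀ φ : V → X, (∏ f ∈ E.erase e, (1 + s * ew U φ f)) * ew U φ e
        = ∑ T ∈ E.powerset with e ∈ T, s ^ (T.card - 1) * ∏ f ∈ T, ew U φ f := by
      intro φ
      rw [Finset.prod_one_add, sum_mul]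
      refine sum_nbij' (fun T => insert e T) (fun T => T.erase e) ?_ ?_ ?_ ?_ ?_
      · intro T hT
        simp only [mem_powerset] at hT
        simp only [mem_filter, mem_powerset, mem_insert_self, and_true]
        exact insert_subset he (hT.trans (erase_subset _ _))
      · intro T hT
        simp only [mem_filter, mem_powerset] at hT ⊢
        exact erase_subset_erase _ hT.1
      · intro T hT
        simp only [mem_powerset] at hT
        exact erase_insert fun h => by simpa using hT h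
      · intro T hT
        simp only [mem_filter] at hT
        exact insert_erase hT.2
      · intro T hT
        simp only [mem_powerset] at hT
        have hn : e ∉ T := fun h => by simpa using hT h
        rw [card_insert_of_notMem hn, prod_insert hn, prod_mul_distrib, prod_const,
          Nat.add_sub_cancel]
        ring
    simp only [hp]
    rw [av_sum, sum_mem_decomp E e]
    refine sum_congr rfl fun F hF => ?_
    simp only [conns, mem_filter] at hF
    have hd : ∀ R ∈ (off E F).powerset, Disjoint F R := fun R hR => disjoint_right.2 fun f hfR hfF =>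
      (mem_off.1 (mem_powerset.1 hR hfR)).2 f hfF (touch_self f)
    have hdv : Disjoint (verts F) (verts (off E F)) := disjoint_left.2 fun v h1 h2 => by
      obtain ⟨g, hg, hvg⟩ := mem_verts.1 h1
      obtain ⟨f, hf, hvf⟩ := mem_verts.1 h2
      exact (mem_off.1 hf).2 g hg ⟨v, hvg, hvf⟩
    rw [show Z U (off E F) s = av fun φ : V → X => ∏ f ∈ off E F, (1 + s * ew U φ f) from rfl, wt,
      ← av_mul (onlyOn_prod (fun t => t) F) (onlyOn_prod (fun t => 1 + s * t) (off E F)) hdv,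
      ← av_const_mul, ← av_sum]
    refine congrArg av (funext fun φ => ?_)
    simp only [Finset.prod_one_add, mul_sum]
    refine sum_congr rfl fun R hR => ?_
    rw [card_union_of_disjoint (hd R hR), prod_union (hd R hR), prod_mul_distrib, prod_const,
      Nat.sub_add_comm hF.1.2.1.card_pos, pow_add]
    ring
  rw [sum_congr rfl h2, sum_comm' (t' := conns E) (s' := fun F => F) (h := fun e F => by
    simp only [mem_filter, conns, mem_powerset]
    exact ⟨fun h => ⟨h.2.2, h.2.1⟩, fun h => ⟨h.2.1 h.1, h.2, h.1⟩⟩)]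
  simp [sum_const, mul_assoc]

theorem Z_off_bounds [Nonempty X] {a s : ℝ} (ha : 0 ≤ a) (ha1 : a ≤ 1 / 2) (hs0 : 0 ≤ s)
    (hs1 : s ≤ 1) (hb : ∀ x y, |U x y| ≤ a) {Δ : ℕ}
    (hdeg : ∀ v, (E.filter fun f => v ∈ f).card ≤ Δ) (F : Finset (Sym2 V)) :
    Z U (off E F) s ≤ ((1 - a)⁻¹ ^ (2 * Δ)) ^ F.card * Z U E s ∧
      Z U E s ≤ ((1 - a)⁻¹ ^ (2 * Δ)) ^ F.card * Z U (off E F) s := by
  classical
  set k := (E \ off E F).card
  have hk : k ≤ 2 * Δ * F.card := by
    refine (card_le_card (t := (verts F).biUnion fun v => E.filter fun f => v ∈ f) fun f hf => ?_).trans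
      (card_biUnion_le.trans ((sum_le_card_nsmul _ _ Δ fun v _ => hdeg v).trans ?_))
    · simp only [mem_sdiff, mem_off, not_and, not_forall, exists_prop, not_not] at hf
      obtain ⟨g, hg, v, hvg, hvf⟩ := hf.2 hf.1
      exact mem_biUnion.2 ⟨v, mem_verts.2 ⟨g, hg, hvg⟩, mem_filter.2 ⟨hf.1, hvf⟩⟩
    · rw [smul_eq_mul]
      exact (Nat.mul_le_mul_right Δ (card_verts_le F)).trans (le_of_eq (by ring))
  have hfac : ∀ (φ : V → X) e, 1 - a ≤ 1 + s * ew U φ e ∧ 1 + s * ew U φ e ≤ 1 + a := fun φ e => by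
    have := abs_le.1 (abs_ew_le hb φ e)
    have h1 : |s * ew U φ e| ≤ a := by
      rw [abs_mul, abs_of_nonneg hs0]
      exact (mul_le_of_le_one_left (abs_nonneg _) hs1).trans (abs_ew_le hb φ e)
    have := abs_le.1 h1
    constructor <;> linarith
  have hpos : ∀ (T : Finset (Sym2 V)) (φ : V → X), 0 ≤ ∏ e ∈ T, (1 + s * ew U φ e) := fun T φ =>
    prod_nonneg fun e _ => by linarith [(hfac φ e).1]
  have hlo : (1 - a) ^ k * Z U (off E F) s ≤ Z U E s := by
    unfold Z
    rw [← av_const_mul]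
    refine av_mono fun φ => ?_
    rw [← prod_sdiff (show off E F ⊆ E from filter_subset _ _)]
    refine mul_le_mul_of_nonneg_right ?_ (hpos _ φ)
    calc (1 - a) ^ k = ∏ _e ∈ E \ off E F, (1 - a) := (prod_const _).symm
      _ ≤ _ := prod_le_prod (fun _ _ => by linarith) fun e _ => (hfac φ e).1
  have hhi : Z U E s ≤ (1 + a) ^ k * Z U (off E F) s := by
    unfold Z
    rw [← av_const_mul]
    refine av_mono fun φ => ?_
    rw [← prod_sdiff (show off E F ⊆ E from filter_subset _ _)]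
    refine mul_le_mul_of_nonneg_right ?_ (hpos _ φ)
    calc _ ≤ ∏ _e ∈ E \ off E F, (1 + a) :=
          prod_le_prod (fun e _ => by linarith [(hfac φ e).1]) fun e _ => (hfac φ e).2
      _ = _ := prod_const _
  have hinv : (1 + a) ≤ (1 - a)⁻¹ := by
    rw [← one_div, le_div_iff₀ (by linarith)]; nlinarith
  have hL : ((1 - a)⁻¹) ^ k ≤ ((1 - a)⁻¹ ^ (2 * Δ)) ^ F.card := by
    rw [← pow_mul]; exact pow_le_pow_right₀ (by linarith) hk
  have hE : 0 ≤ Z U E s := by
    have := av_mono (V := V) (X := X) (f := fun _ => 0) fun φ => hpos E φ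
    simpa [Z, av_const] using this
  have hO : 0 ≤ Z U (off E F) s := by
    have := av_mono (V := V) (X := X) (f := fun _ => 0) fun φ => hpos (off E F) φ
    simpa [Z, av_const] using this
  constructor
  · refine le_trans ?_ (mul_le_mul_of_nonneg_right hL hE)
    rw [inv_pow, inv_mul_eq_div, le_div_iff₀ (pow_pos (by linarith) _)]
    linarith [hlo]
  · refine hhi.trans (mul_le_mul_of_nonneg_right ((pow_le_pow_left₀ (by linarith) hinv k).trans hL) hO)

theorem inv_one_sub_le_exp {a : ℝ} (ha : 0 ≤ a) (ha1 : a ≤ 1 / 2) :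
    (1 - a)⁻¹ ≤ Real.exp (2 * a) := by
  rw [inv_le_iff_one_le_mul₀ (by linarith)]
  nlinarith [Real.add_one_le_exp (2 * a)]

theorem exp_le_linear {y : ℝ} (h0 : 0 ≤ y) (h1 : y ≤ 1) : Real.exp y ≤ 1 + 2 * y := by
  have := Real.abs_exp_sub_one_le (x := y) (by rwa [abs_of_nonneg h0])
  rw [abs_of_nonneg h0] at this
  linarith [(abs_le.1 this).2]

theorem grown_count' {E : Finset (Sym2 V)} {Δ : ℕ} (hdeg : ∀ v, (E.filter fun f => v ∈ f).card ≤ Δ)
    {x : ℝ} (hx : 0 ≤ x) (hxΔ : x * Δ ≤ 1 / 8) (W : Finset V) :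
    haveI := Classical.decPred (Grown W)
    ∑ R ∈ E.powerset with Grown W R, x ^ R.card ≤ (1 + 4 * (x * Δ)) ^ W.card := by
  set B := 1 + 4 * (x * Δ)
  have hxd : 0 ≤ x * Δ := by positivity
  have hB : (1 + x * B) ^ Δ ≤ B := by
    refine (pow_le_pow_left₀ (by positivity) (show 1 + x * B ≤ Real.exp (x * B) by
      linarith [Real.add_one_le_exp (x * B)]) Δ).trans ?_
    rw [← Real.exp_nat_mul]
    refine (Real.exp_le_exp.2 (show (Δ : ℝ) * (x * B) ≤ 2 * (x * Δ) from ?_)).trans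
      ((exp_le_linear (by positivity) (by linarith)).trans (le_of_eq (by ring)))
    have : (x * Δ) * B ≤ (x * Δ) * 2 := mul_le_mul_of_nonneg_left (by linarith) hxd
    linarith
  convert grown_count hx (by linarith) hB _ E W le_rfl hdeg using 2

open scoped Classical in
/-- The cycle edge sets of length at most `n`. -/
noncomputable def shortCycles (E : Finset (Sym2 V)) (n : ℕ) : Finset (Finset (Sym2 V)) :=
  (conns E).filter fun S => S.card ≤ n ∧ ∃ (k : ℕ) (c : Fin (k + 1) → V), CycleIn S c ∧ cyc c = S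

theorem conn_cyc {k : ℕ} (c : Fin (k + 1) → V) : Conn (cyc c) := by
  refine ⟨univ_nonempty.image _, fun Q hQ hne => Subset.antisymm hQ.1 ?_⟩
  obtain ⟨g, hg⟩ := hne
  obtain ⟨i0, -, rfl⟩ := mem_image.1 (hQ.1 hg)
  have hall : ∀ (n : ℕ), s(c (i0 + (Fin.ofNat (k + 1) n) - 1), c (i0 + Fin.ofNat (k + 1) n)) ∈ Q := by
    intro n
    induction n with
    | zero => simpa using hg
    | succ n ih =>
      refine hQ.2 _ ih _ (mem_image.2 ⟨_, mem_univ _, rfl⟩)
        ⟨c (i0 + Fin.ofNat (k + 1) n), Sym2.mem_mk_right _ _, ?_⟩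
      convert Sym2.mem_mk_left _ _ using 2
      rw [show (Fin.ofNat (k + 1) (n + 1)) = Fin.ofNat (k + 1) n + 1 from Fin.ext (by
        simp [Fin.val_add, Fin.ofNat, Nat.add_mod])]
      abel
  intro e he
  obtain ⟨i, -, rfl⟩ := mem_image.1 he
  have := hall (i - i0 : Fin (k + 1))
  simpa using this

/-- The main terms: pairs of touching edges and short cycles. -/
noncomputable def mains (E : Finset (Sym2 V)) (n : ℕ) : Finset (Finset (Sym2 V)) :=
  haveI := Classical.decEq (Finset (Sym2 V))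
  ((conns E).filter fun S => S.card = 2) ∪ shortCycles E n

theorem mem_conns {E F : Finset (Sym2 V)} : F ∈ conns E ↔ F ⊆ E ∧ Conn F := by
  simp [conns]

theorem mains_subset (n : ℕ) : mains E n ⊆ conns E := by
  intro S hS
  simp only [mains, mem_union, shortCycles, mem_filter] at hS
  rcases hS with h | h <;> exact h.1

theorem cyc_mem_mains {n k : ℕ} {c : Fin (k + 1) → V} (hc : CycleIn E c) (hkn : k + 1 ≤ n) :
    cyc c ∈ mains E n := by
  simp only [mains, mem_union, shortCycles, mem_filter, mem_conns]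
  exact Or.inr ⟨⟨hc.2.2, conn_cyc c⟩, (card_cyc hc.1 hc.2.1).le.trans hkn, k, c,
    ⟨hc.1, hc.2.1, Subset.rfl⟩, rfl⟩

theorem pair_mem_mains {n : ℕ} {e f : Sym2 V} (he : e ∈ E) (hf : f ∈ E) (hef : e ≠ f)
    (ht : Touch e f) : ({e, f} : Finset (Sym2 V)) ∈ mains E n := by
  simp only [mains, mem_union, mem_filter, mem_conns]
  exact Or.inl ⟨⟨by simp [insert_subset_iff, he, hf], conn_pair ht⟩, card_pair hef⟩

theorem mains_spec [Nonempty X] (hU : ∀ x y, U x y = U y x) (hloop : ∀ e ∈ E, ¬ e.IsDiag)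
    {col : V → Bool} (hcol : ∀ u v, s(u, v) ∈ E → col u ≠ col v) {n : ℕ} (hn : 2 ≤ n)
    {S : Finset (Sym2 V)} (hS : S ∈ mains E n) : 2 ≤ S.card ∧ S.card ≤ n ∧ 0 ≤ wt U S := by
  simp only [mains, mem_union, shortCycles, mem_filter, mem_conns] at hS
  rcases hS with ⟨⟨hSE, hSc⟩, h2⟩ | ⟨⟨hSE, hSc⟩, hcard, k, c, hc, hcS⟩
  · refine ⟨h2.ge, by omega, ?_⟩
    obtain ⟨e, f, hef, rfl⟩ := card_eq_two.1 h2
    obtain ⟨f', hf', hne, ht⟩ := exists_touch hSc h2.ge (mem_insert_self e _)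
    have : f' = f := by simpa [hne] using hf'
    subst this
    rw [wt_cherry hU hef (hloop e (hSE (by simp))) (hloop f' (hSE (by simp))) ht]
    exact div_nonneg (sum_nonneg fun _ _ => sq_nonneg _) (Nat.cast_nonneg _)
  · refine ⟨?_, hcard, ?_⟩
    · rw [← hcS, card_cyc hc.1 hc.2.1]; have := hc.1; omega
    · rw [← hcS, wt_cyc hU hc.1 hc.2.1]
      obtain ⟨r, hr⟩ := cycle_even (col := col) fun u v h => hcol u v (hSE (hcS ▸ h))
      rw [hr, show 2 * r + 1 + 1 = (r + 1) + (r + 1) by omega, pow_add]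
      nth_rw 2 [← ((mat_symm hU).pow (r + 1)).eq]
      exact trace_mul_transpose_nonneg _

/-- A bound for a term extending the main term `S`. -/
noncomputable def ext1 (U : X → X → ℝ) (a s M : ℝ) (L : ℝ) (F S : Finset (Sym2 V)) : ℝ :=
  (F.card : ℝ) * s ^ (S.card - 1) * (a ^ (F.card - S.card) * wt U S) * (L ^ F.card * M)

/-- A bound for a term all of whose cycles are long. -/
noncomputable def ext0 (a s M Q : ℝ) (L : ℝ) (n g : ℕ) (F : Finset (Sym2 V)) : ℝ :=
  if n < F.card then (F.card : ℝ) * s ^ (2 * g - 1) * (a ^ (F.card - 2 * g) * Q) * (L ^ F.card * M)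
  else 0

open scoped Classical in
theorem dominated [Nonempty X] {a s M L : ℝ} (ha : 0 < a) (hs0 : 0 ≤ s) (hs1 : s ≤ 1) (hM : 0 ≤ M)
    (hL : 0 ≤ L) (hU : ∀ x y, U x y = U y x) (h0 : ∑ x, ∑ y, U x y = 0)
    (hb : ∀ x y, |U x y| ≤ a) (hloop : ∀ e ∈ E, ¬ e.IsDiag)
    {col : V → Bool} (hcol : ∀ u v, s(u, v) ∈ E → col u ≠ col v) {g n : ℕ} (hg : 1 ≤ g)
    (hgn : 2 * g ≤ n) (hQ : 0 ≤ trace (mat U ^ (2 * g))) {F : Finset (Sym2 V)}
    (hF : F ∈ conns E \ mains E n) {ρ : ℝ} (hρ0 : 0 ≤ ρ) (hρ : ρ ≤ L ^ F.card * M) :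
    |(F.card : ℝ) * s ^ (F.card - 1) * (wt U F * ρ)|
      ≤ (∑ S ∈ (mains E n).filter (fun S => S ⊂ F), ext1 U a s M L F S)
        + ext0 a s M (trace (mat U ^ (2 * g))) L n g F := by
  obtain ⟨hFP, hFM⟩ := mem_sdiff.1 hF
  obtain ⟨hFE, hFc⟩ := mem_conns.1 hFP
  have hG0 : ∀ S ∈ (mains E n).filter (fun S => S ⊂ F), 0 ≤ ext1 U a s M L F S := fun S hS => by
    have := (mains_spec hU hloop hcol (by omega) (mem_filter.1 hS).1).2.2
    unfold ext1; positivity
  have hG00 : 0 ≤ ext0 a s M (trace (mat U ^ (2 * g))) L n g F := by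
    unfold ext0; split_ifs
    · positivity
    · exact le_rfl
  have hterm : ∀ (r : ℕ) (w : ℝ), r ≤ F.card → |wt U F| ≤ w →
      |(F.card : ℝ) * s ^ (F.card - 1) * (wt U F * ρ)|
        ≤ (F.card : ℝ) * s ^ (r - 1) * w * (L ^ F.card * M) := by
    intro r w hr hw
    have hw0 : 0 ≤ w := (abs_nonneg _).trans hw
    rw [abs_mul, abs_mul, abs_mul, abs_of_nonneg hρ0, abs_of_nonneg (pow_nonneg hs0 _),
      Nat.abs_cast, ← mul_assoc]
    exact mul_le_mul (mul_le_mul (mul_le_mul_of_nonneg_left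
      (pow_le_pow_of_le_one hs0 hs1 (by omega)) (Nat.cast_nonneg _)) hw (abs_nonneg _)
      (by positivity)) hρ hρ0 (by positivity)
  by_cases h1 : F.card ≤ 1
  · obtain ⟨e, rfl⟩ := card_eq_one.1 (le_antisymm h1 hFc.1.card_pos)
    rw [wt_single hU h0 (hloop e (hFE (mem_singleton_self e))), zero_mul, mul_zero, abs_zero]
    exact add_nonneg (sum_nonneg hG0) hG00
  have hloopF : ∀ e ∈ F, ¬ e.IsDiag := fun e he => hloop e (hFE he)
  rcases leaves_or_cycle hFc (by omega) hloopF with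
    ⟨u, v, p', q, huv, hne, hu, hv⟩ | ⟨k, c, hc⟩
  · obtain ⟨e, he⟩ := hFc.1
    obtain ⟨f, hf, hfe, ht⟩ := exists_touch hFc (by omega) he
    have hS2 : ({e, f} : Finset (Sym2 V)).card = 2 := card_pair hfe.symm
    have hSM := pair_mem_mains (n := n) (hFE he) (hFE hf) hfe.symm ht
    have hSF : ({e, f} : Finset (Sym2 V)) ⊂ F :=
      Finset.ssubset_iff_subset_ne.2 ⟨by simp [insert_subset_iff, he, hf], fun h => hFM (h ▸ hSM)⟩
    have hb2 := abs_wt_leaves hU ha.le hb hloopF huv hne hu hv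
    rw [← wt_cherry (U := U) hU hfe.symm (hloopF e he) (hloopF f hf) ht] at hb2
    refine le_trans ?_ (le_add_of_le_of_nonneg
      (single_le_sum hG0 (mem_filter.2 ⟨hSM, hSF⟩)) hG00)
    simp only [ext1, hS2]
    exact hterm 2 _ (by omega) hb2
  · obtain ⟨k, ⟨c, hc⟩, hmin⟩ : ∃ k, (∃ c : Fin (k + 1) → V, CycleIn F c) ∧
        ∀ (k' : ℕ) (c' : Fin (k' + 1) → V), CycleIn F c' → k ≤ k' := by
      have hex : ∃ k, ∃ c : Fin (k + 1) → V, CycleIn F c := ⟨k, c, hc⟩
      exact ⟨Nat.find hex, Nat.find_spec hex, fun k' c' h => Nat.find_min' hex ⟨c', h⟩⟩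
    have hch := fun a b => chordless hc hmin (a := a) (b := b)
    obtain ⟨r, hr⟩ := cycle_even (col := col) fun u v h => hcol u v (hFE (hc.2.2 h))
    have hwt := abs_wt_cycle hU ha hb (j := r + 1) (by omega) hc hch
    have hcc := card_cyc hc.1 hc.2.1
    have hcF : k + 1 ≤ F.card := hcc ▸ card_le_card hc.2.2
    by_cases hshort : k + 1 ≤ n
    · have hSM := cyc_mem_mains (E := E) ⟨hc.1, hc.2.1, hc.2.2.trans hFE⟩ hshort
      have hSF : cyc c ⊂ F :=
        Finset.ssubset_iff_subset_ne.2 ⟨hc.2.2, fun h => hFM (h ▸ hSM)⟩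
      refine le_trans ?_ (le_add_of_le_of_nonneg
        (single_le_sum hG0 (mem_filter.2 ⟨hSM, hSF⟩)) hG00)
      rw [ext1, hcc, wt_cyc hU hc.1 hc.2.1]
      exact hterm _ _ hcF hwt
    · refine le_trans ?_ (le_add_of_nonneg_left (sum_nonneg hG0))
      rw [ext0, if_pos (show n < F.card by omega)]
      refine hterm _ _ (by omega) (hwt.trans ?_)
      have h := trace_pow_le (mat_symm hU) ha.le (abs_mat_le hb) (g := g) (r + 1) (by omega)
      rw [show k + 1 = 2 * (r + 1) by omega]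
      refine (mul_le_mul_of_nonneg_left h (pow_nonneg ha.le _)).trans (le_of_eq ?_)
      rw [← mul_assoc, ← pow_add]
      congr 2
      omega

open scoped Classical in
theorem extensions {a s M L : ℝ} (ha : 0 ≤ a) (hs0 : 0 ≤ s) (hM : 0 ≤ M) (hL : 1 ≤ L) {Δ : ℕ}
    (hdeg : ∀ v, (E.filter fun f => v ∈ f).card ≤ Δ) (hxΔ : 2 * a * L * Δ ≤ 1 / 8)
    {S : Finset (Sym2 V)} (hS : S ∈ conns E) (hwS : 0 ≤ wt U S)
    (hfac : (L ^ S.card) ^ 2 * ((1 + 4 * (2 * a * L * Δ)) ^ (2 * S.card) - 1) ≤ 1 / 4)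
    (P : Finset (Finset (Sym2 V))) (hP : ∀ F ∈ P, F ∈ conns E ∧ S ⊂ F) :
    ∑ F ∈ P, ext1 U a s M L F S
      ≤ 1 / 4 * ((S.card : ℝ) * s ^ (S.card - 1) * wt U S * M / L ^ S.card) := by
  obtain ⟨hSE, hSc⟩ := mem_conns.1 hS
  have hS1 : 1 ≤ S.card := hSc.1.card_pos
  set x := 2 * a * L with hx
  have hx0 : 0 ≤ x := by positivity
  set c := (S.card : ℝ) * s ^ (S.card - 1) * wt U S * (L ^ S.card * M)
  have hc0 : 0 ≤ c := by positivity
  have hle : ∀ F, S ⊂ F → ext1 U a s M L F S ≤ c * x ^ (F \ S).card := by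
    intro F hF
    have h1 : F.card = S.card + (F \ S).card := by
      rw [card_sdiff_of_subset hF.subset]
      have := card_le_card hF.subset
      omega
    simp only [ext1, c]
    rw [h1, Nat.add_sub_cancel_left]
    generalize (F \ S).card = r
    have h2 : ((S.card + r : ℕ) : ℝ) ≤ S.card * 2 ^ r := by
      have : S.card + r ≤ S.card * 2 ^ r := by
        have h : S.card * (r + 1) ≤ S.card * 2 ^ r := Nat.mul_le_mul_left _ Nat.lt_two_pow_self
        have : r ≤ S.card * r := Nat.le_mul_of_pos_left r hS1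
        linarith
      exact_mod_cast this
    calc _ = ((S.card + r : ℕ) : ℝ) * (s ^ (S.card - 1) * (a ^ r * wt U S) * (L ^ (S.card + r) * M)) := by
          ring
      _ ≤ (S.card * 2 ^ r) * (s ^ (S.card - 1) * (a ^ r * wt U S) * (L ^ (S.card + r) * M)) :=
          mul_le_mul_of_nonneg_right h2 (by positivity)
      _ = _ := by rw [hx, mul_pow, mul_pow, pow_add]; ring
  refine (sum_le_sum fun F hF => hle F (hP F hF).2).trans ?_
  rw [← mul_sum]
  have hsumle : ∑ F ∈ P, x ^ (F \ S).card ≤ (1 + 4 * (x * Δ)) ^ (2 * S.card) - 1 := by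
    have himg : P.image (fun F => F \ S)
        ⊆ ((E.powerset.filter (Grown (verts S))).erase ∅) := by
      intro R hR
      obtain ⟨F, hF, rfl⟩ := mem_image.1 hR
      obtain ⟨hFP, hSF⟩ := hP F hF
      obtain ⟨hFE, hFc⟩ := mem_conns.1 hFP
      exact mem_erase.2 ⟨(sdiff_nonempty.2 hSF.not_subset).ne_empty, mem_filter.2
        ⟨mem_powerset.2 (sdiff_subset.trans hFE), grown_sdiff hFc hSF.subset hSc.1⟩⟩
    have hgc := grown_count' hdeg hx0 hxΔ (verts S)
    rw [← add_sum_erase _ _ (show (∅ : Finset (Sym2 V)) ∈ E.powerset.filter (Grown (verts S)) from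
      mem_filter.2 ⟨empty_mem_powerset _, fun Q hQ hne => by
        obtain ⟨f, hf⟩ := hne; exact absurd (hQ.1 hf) (by simp)⟩), card_empty, pow_zero] at hgc
    have hB1 : 1 ≤ 1 + 4 * (x * (Δ : ℝ)) := by
      have : 0 ≤ x * (Δ : ℝ) := by positivity
      linarith
    have h2 := pow_le_pow_right₀ hB1 (card_verts_le S)
    have h3 := sum_le_sum_of_subset_of_nonneg (f := fun R : Finset (Sym2 V) => x ^ R.card) himg
      fun R _ _ => pow_nonneg hx0 _
    rw [sum_image fun F hF F' hF' h => ?_] at h3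
    · linarith
    · rw [← union_sdiff_of_subset (hP F hF).2.subset, h, union_sdiff_of_subset (hP F' hF').2.subset]
  refine (mul_le_mul_of_nonneg_left hsumle hc0).trans ?_
  have hpS : 0 ≤ (S.card : ℝ) * s ^ (S.card - 1) * wt U S * M / L ^ S.card := by positivity
  refine le_trans (le_of_eq ?_) ((mul_le_mul_of_nonneg_left hfac hpS).trans (le_of_eq (mul_comm _ _)))
  simp only [c]
  field_simp

open scoped Classical in
theorem long_terms {a s M Q L : ℝ} (ha : 0 ≤ a) (hs0 : 0 ≤ s) (hM : 0 ≤ M) (hQ : 0 ≤ Q)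
    (hL : 1 ≤ L) (hL2 : L ≤ 2) {Δ : ℕ} (hΔ : 1 ≤ Δ) (hxΔ : 2 * a * L * Δ ≤ 1 / 20)
    (hdeg : ∀ v, (E.filter fun f => v ∈ f).card ≤ Δ) {g K : ℕ} (hg : 2 ≤ g) (hgK : g ≤ K)
    (hK : 2 * (E.card : ℝ) * (256 * Δ) ^ (2 * g) ≤ 2 ^ (2 * K))
    (P : Finset (Finset (Sym2 V))) (hP : P ⊆ conns E) :
    ∑ F ∈ P, ext0 a s M Q L (2 * K) g F
      ≤ 1 / 4 * (((2 * g : ℕ) : ℝ) * s ^ (2 * g - 1) * Q * M / L ^ (2 * g)) := by
  set x := 2 * a * L with hx
  set y := 1 / (10 * (Δ : ℝ)) with hy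
  have hΔR : (1 : ℝ) ≤ Δ := by exact_mod_cast hΔ
  have hy0 : 0 < y := by positivity
  have hyΔ : y * Δ = 1 / 10 := by rw [hy]; field_simp
  set c := s ^ (2 * g - 1) * Q * M
  have hc' : 0 ≤ c := by positivity
  have hper : ∀ F ∈ P, ext0 a s M Q L (2 * K) g F
      ≤ c * ((80 * Δ) ^ (2 * g) / 2 ^ (2 * K)) * y ^ F.card := by
    intro F _
    unfold ext0
    split_ifs with hlt
    · obtain ⟨t, ht⟩ : ∃ t, F.card = 2 * g + t := ⟨F.card - 2 * g, by omega⟩
      rw [ht, Nat.add_sub_cancel_left]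
      have hxy : x ≤ y / 2 := by
        rw [hy, div_div, le_div_iff₀ (by positivity)]
        linarith
      have h2 : ((2 * g + t : ℕ) : ℝ) ≤ 2 ^ (2 * g + t) := by exact_mod_cast (Nat.lt_two_pow_self).le
      have h8 : (80 * (Δ : ℝ)) * y = 8 := by linarith
      calc _ = ((2 * g + t : ℕ) : ℝ) * (c * (a ^ t * L ^ (2 * g + t))) := by simp only [c]; ring
        _ ≤ 2 ^ (2 * g + t) * (c * (a ^ t * L ^ (2 * g + t))) :=
            mul_le_mul_of_nonneg_right h2 (by positivity)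
        _ = c * ((2 * L) ^ (2 * g) * x ^ t) := by
            rw [hx, mul_pow, mul_pow, mul_pow, pow_add, pow_add]; ring
        _ ≤ c * ((2 * 2) ^ (2 * g) * (y / 2) ^ t) := by gcongr
        _ ≤ c * ((8 : ℝ) ^ (2 * g) / 2 ^ (2 * K) * y ^ t) := by
            refine mul_le_mul_of_nonneg_left ?_ hc'
            rw [div_pow, ← mul_div_assoc, div_mul_eq_mul_div,
              div_le_div_iff₀ (by positivity) (by positivity),
              show (8 : ℝ) ^ (2 * g) = 2 ^ (2 * g) * 2 ^ (2 * g) * 2 ^ (2 * g) by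
                rw [← mul_pow, ← mul_pow]; norm_num,
              mul_pow (2 : ℝ) 2 (2 * g)]
            have h := pow_le_pow_right₀ (one_le_two (α := ℝ)) (show 2 * K ≤ 2 * g + t by omega)
            rw [pow_add] at h
            calc _ = (2 : ℝ) ^ (2 * g) * 2 ^ (2 * g) * y ^ t * 2 ^ (2 * K) := by ring
              _ ≤ (2 : ℝ) ^ (2 * g) * 2 ^ (2 * g) * y ^ t * (2 ^ (2 * g) * 2 ^ t) := by gcongr
              _ = _ := by ring
        _ = _ := by rw [← h8, mul_pow, pow_add]; ring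
    · positivity
  refine (sum_le_sum hper).trans ?_
  rw [← mul_sum]
  have hsum : ∑ F ∈ P, y ^ F.card ≤ E.card := by
    calc ∑ F ∈ P, y ^ F.card ≤ ∑ F ∈ P, ∑ _e ∈ F, y ^ F.card := sum_le_sum fun F hF => by
          rw [sum_const, nsmul_eq_mul]
          exact le_mul_of_one_le_left (by positivity)
            (by exact_mod_cast (mem_conns.1 (hP hF)).2.1.card_pos)
      _ = ∑ e ∈ E, ∑ F ∈ P with e ∈ F, y ^ F.card := by
          refine sum_comm' fun F e => ?_
          simp only [mem_filter]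
          exact ⟨fun h => ⟨⟨h.1, h.2⟩, (mem_conns.1 (hP h.1)).1 h.2⟩, fun h => ⟨h.1.1, h.1.2⟩⟩
      _ ≤ ∑ e ∈ E, (1 : ℝ) := by
          refine sum_le_sum fun e _ => ?_
          have h1 := grown_count' (x := y) hdeg hy0.le (by linarith) (verts {e})
          have himg : (P.filter fun F => e ∈ F).image (fun F => F.erase e)
              ⊆ E.powerset.filter (Grown (verts {e})) := by
            intro R hR
            obtain ⟨F, hF, rfl⟩ := mem_image.1 hR
            obtain ⟨hFP, heF⟩ := mem_filter.1 hF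
            refine mem_filter.2 ⟨mem_powerset.2 ((erase_subset _ _).trans (mem_conns.1 (hP hFP)).1), ?_⟩
            rw [erase_eq]
            exact grown_sdiff (mem_conns.1 (hP hFP)).2 (singleton_subset_iff.2 heF) (singleton_nonempty e)
          have h3 := sum_le_sum_of_subset_of_nonneg (f := fun R : Finset (Sym2 V) => y ^ R.card) himg
            fun R _ _ => by positivity
          rw [sum_image fun F hF F' hF' h => by
            rw [← insert_erase (mem_filter.1 hF).2, h, insert_erase (mem_filter.1 hF').2]] at h3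
          have h4 : ∑ F ∈ P with e ∈ F, y ^ F.card
              = y * ∑ F ∈ P with e ∈ F, y ^ (F.erase e).card := by
            rw [mul_sum]
            refine sum_congr rfl fun F hF => ?_
            rw [← pow_succ', card_erase_add_one (mem_filter.1 hF).2]
          rw [hyΔ] at h1
          have h5 : ((1 : ℝ) + 4 * (1 / 10)) ^ (verts {e}).card ≤ (1 + 4 * (1 / 10)) ^ 2 :=
            pow_le_pow_right₀ (by norm_num) ((card_verts_le {e}).trans (by simp))
          have hy1 : y ≤ 1 / 10 := (le_mul_of_one_le_right hy0.le hΔR).trans hyΔ.le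
          rw [h4]
          refine (mul_le_mul hy1 (h3.trans (h1.trans h5)) (sum_nonneg fun _ _ => by positivity)
            (by norm_num)).trans ?_
          norm_num
      _ = E.card := by simp
  refine (mul_le_mul_of_nonneg_left hsum (by positivity)).trans ?_
  have hL2g : L ^ (2 * g) ≤ 2 ^ (2 * g) := pow_le_pow_left₀ (by linarith) hL2 _
  have hnum : (80 * (Δ : ℝ)) ^ (2 * g) * E.card * L ^ (2 * g) ≤ 1 / 4 * ((2 * g : ℕ) : ℝ) * 2 ^ (2 * K) := by
    calc _ ≤ (80 * (Δ : ℝ)) ^ (2 * g) * E.card * 2 ^ (2 * g) := by gcongr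
      _ = (160 * (Δ : ℝ)) ^ (2 * g) * E.card := by
          rw [show (160 : ℝ) * Δ = 80 * Δ * 2 by ring, mul_pow (80 * (Δ : ℝ))]; ring
      _ ≤ (256 * (Δ : ℝ)) ^ (2 * g) * E.card := by gcongr; norm_num
      _ ≤ 1 / 2 * 2 ^ (2 * K) := by linarith
      _ ≤ _ := by
          refine mul_le_mul_of_nonneg_right ?_ (by positivity)
          have : (2 : ℝ) ≤ g := by exact_mod_cast hg
          push_cast
          linarith
  calc c * ((80 * Δ) ^ (2 * g) / 2 ^ (2 * K)) * E.card
      = c / (2 ^ (2 * K) * L ^ (2 * g)) * ((80 * (Δ : ℝ)) ^ (2 * g) * E.card * L ^ (2 * g)) := by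
        field_simp
    _ ≤ c / (2 ^ (2 * K) * L ^ (2 * g)) * (1 / 4 * ((2 * g : ℕ) : ℝ) * 2 ^ (2 * K)) :=
        mul_le_mul_of_nonneg_left hnum (by positivity)
    _ = _ := by simp only [c]; field_simp

open scoped Classical in
/-- The derivative is nonnegative. -/
theorem deriv_Z_nonneg [Nonempty X] {a s : ℝ} (ha : 0 < a) (hs0 : 0 ≤ s) (hs1 : s ≤ 1)
    (hU : ∀ x y, U x y = U y x) (h0 : ∑ x, ∑ y, U x y = 0) (hb : ∀ x y, |U x y| ≤ a) {Δ : ℕ}
    (hΔ : 1 ≤ Δ) (hdeg : ∀ v, (E.filter fun f => v ∈ f).card ≤ Δ) (hloop : ∀ e ∈ E, ¬ e.IsDiag)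
    {col : V → Bool} (hcol : ∀ u v, s(u, v) ∈ E → col u ≠ col v) {k0 g : ℕ}
    {c0 : Fin (k0 + 1) → V} (hc0 : CycleIn E c0) (hk0 : k0 + 1 = 2 * g) {K : ℕ} (hgK : g ≤ K)
    (hθ : a * Δ * K ≤ 1 / 1000)
    (hK : 2 * (E.card : ℝ) * (256 * Δ) ^ (2 * g) ≤ 2 ^ (2 * K)) :
    0 ≤ ∑ F ∈ conns E, (F.card : ℝ) * s ^ (F.card - 1) * (wt U F * Z U (off E F) s) := by
  have hg2 : 2 ≤ g := by have := hc0.1; omega
  have hK2 : (2 : ℝ) ≤ K := by exact_mod_cast hg2.trans hgK
  have hΔR : (1 : ℝ) ≤ Δ := by exact_mod_cast hΔ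
  set θ := a * (Δ : ℝ) with hθdef
  have hθ0 : 0 < θ := by positivity
  have hθsmall : θ ≤ 1 / 2000 := by
    have : θ * 2 ≤ θ * K := mul_le_mul_of_nonneg_left hK2 hθ0.le
    linarith
  have haθ : a ≤ θ := le_mul_of_one_le_right ha.le hΔR
  have ha2 : a ≤ 1 / 2 := by linarith
  set L := (1 - a)⁻¹ ^ (2 * Δ) with hL
  have hinv : 1 ≤ (1 - a)⁻¹ := one_le_inv_iff₀.2 ⟨by linarith, by linarith⟩
  have hL1 : 1 ≤ L := one_le_pow₀ hinv
  have hLexp : L ≤ Real.exp (4 * θ) := by
    refine (pow_le_pow_left₀ (by linarith) (inv_one_sub_le_exp ha.le ha2) _).trans (le_of_eq ?_)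
    rw [← Real.exp_nat_mul, hθdef]; push_cast; ring_nf
  have hL2 : L ≤ 2 := hLexp.trans ((exp_le_linear (by linarith) (by linarith)).trans (by linarith))
  have hxΔ : 2 * a * L * Δ ≤ 4 * θ := by
    have := mul_le_mul_of_nonneg_left hL2 (show 0 ≤ 2 * a * (Δ : ℝ) by positivity)
    linarith
  have hx0 : 0 ≤ 2 * a * L * Δ := by positivity
  have hBexp : 1 + 4 * (2 * a * L * Δ) ≤ Real.exp (16 * θ) := by
    linarith [Real.add_one_le_exp (16 * θ)]
  have hfac : ∀ n : ℕ, n ≤ 2 * K →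
      (L ^ n) ^ 2 * ((1 + 4 * (2 * a * L * Δ)) ^ (2 * n) - 1) ≤ 1 / 4 := by
    intro n hn
    have h1 : (L ^ n) ^ 2 * (1 + 4 * (2 * a * L * Δ)) ^ (2 * n) ≤ Real.exp (80 * (θ * K)) := by
      rw [← pow_mul]
      refine (mul_le_mul (pow_le_pow_left₀ (by linarith) hLexp _)
        (pow_le_pow_left₀ (by linarith) hBexp _) (by positivity) (by positivity)).trans ?_
      rw [← Real.exp_nat_mul, ← Real.exp_nat_mul, ← Real.exp_add, Real.exp_le_exp]
      have : (n : ℝ) ≤ 2 * K := by exact_mod_cast hn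
      have := mul_le_mul_of_nonneg_left this hθ0.le
      push_cast
      linarith
    have h2 : 1 ≤ (L ^ n) ^ 2 := one_le_pow₀ (one_le_pow₀ hL1)
    have h3 := exp_le_linear (y := 80 * (θ * K)) (by positivity) (by linarith)
    linarith
  set M := mains E (2 * K) with hMdef
  have hspec : ∀ S ∈ M, 2 ≤ S.card ∧ S.card ≤ 2 * K ∧ 0 ≤ wt U S := fun S hS =>
    mains_spec hU hloop hcol (by omega) hS
  have hρ := fun F => Z_off_bounds ha.le ha2 hs0 hs1 hb hdeg (U := U) (E := E) F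
  have hΦ : 0 ≤ Z U E s := by
    have := av_mono (V := V) (X := X) (f := fun _ => (0 : ℝ))
      (g := fun φ => ∏ e ∈ E, (1 + s * ew U φ e)) fun φ => prod_nonneg fun e _ => by
        have h := abs_le.1 (abs_ew_le hb φ e)
        nlinarith
    rwa [av_const] at this
  have hρ0 : ∀ F, 0 ≤ Z U (off E F) s := fun F =>
    nonneg_of_mul_nonneg_right (hΦ.trans (hρ F).2) (pow_pos (lt_of_lt_of_le one_pos hL1) _)
  set p : Finset (Sym2 V) → ℝ := fun S =>
    (S.card : ℝ) * s ^ (S.card - 1) * wt U S * Z U E s / L ^ S.card with hp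
  have hp0 : ∀ S ∈ M, 0 ≤ p S := fun S hS => by have := (hspec S hS).2.2; positivity
  have hpos : ∀ S ∈ M, p S ≤ (S.card : ℝ) * s ^ (S.card - 1) * (wt U S * Z U (off E S) s) := by
    intro S hS
    simp only [hp]
    rw [div_le_iff₀ (by positivity)]
    have := (hspec S hS).2.2
    refine (mul_le_mul_of_nonneg_left (hρ S).2 (by positivity)).trans (le_of_eq (by ring))
  have hC0 : cyc c0 ∈ M := cyc_mem_mains hc0 (by omega)
  have hC0c : (cyc c0).card = 2 * g := by rw [card_cyc hc0.1 hc0.2.1, hk0]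
  have hC0w : wt U (cyc c0) = trace (mat U ^ (2 * g)) := by rw [wt_cyc hU hc0.1 hc0.2.1, hk0]
  have hQ : 0 ≤ trace (mat U ^ (2 * g)) := hC0w ▸ (hspec _ hC0).2.2
  have hsplit := sum_sdiff (f := fun F : Finset (Sym2 V) =>
    (F.card : ℝ) * s ^ (F.card - 1) * (wt U F * Z U (off E F) s)) (mains_subset (E := E) (2 * K))
  have hdom := sum_le_sum (s := conns E \ M) fun F hF =>
    dominated ha hs0 hs1 hΦ (zero_le_one.trans hL1) hU h0 hb hloop hcol (g := g) (by omega)
      (n := 2 * K) (by omega) hQ (F := F) hF (hρ0 F) (hρ F).1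
  have hlong := long_terms ha.le hs0 hΦ hQ hL1 hL2 hΔ (by linarith) hdeg hg2 hgK hK
    (conns E \ M) sdiff_subset
  have hext : ∀ S ∈ M, ∑ F ∈ (conns E \ M).filter (fun F => S ⊂ F),
      ext1 U a s (Z U E s) L F S ≤ 1 / 4 * p S := fun S hS =>
    extensions ha.le hs0 hΦ hL1 hdeg (by linarith) (mains_subset _ hS) (hspec S hS).2.2
      (hfac _ (hspec S hS).2.1) _ fun F hF =>
        ⟨(mem_sdiff.1 (mem_filter.1 hF).1).1, (mem_filter.1 hF).2⟩
  rw [sum_add_distrib, sum_comm' (t' := M) (s' := fun S => (conns E \ M).filter fun F => S ⊂ F)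
    (h := fun F S => by simp only [mem_filter]; tauto)] at hdom
  have hneg : -∑ F ∈ conns E \ M, |(F.card : ℝ) * s ^ (F.card - 1) * (wt U F * Z U (off E F) s)|
      ≤ ∑ F ∈ conns E \ M, (F.card : ℝ) * s ^ (F.card - 1) * (wt U F * Z U (off E F) s) :=
    (le_of_eq (sum_neg_distrib _).symm).trans (sum_le_sum fun F _ => neg_abs_le _)
  have h5 := sum_le_sum hext
  rw [← mul_sum] at h5
  have hpC : p (cyc c0)
      = ((2 * g : ℕ) : ℝ) * s ^ (2 * g - 1) * trace (mat U ^ (2 * g)) * Z U E s / L ^ (2 * g) := by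
    simp only [hp, hC0c, hC0w]
  have h6 := single_le_sum hp0 hC0
  have h7 := hp0 _ hC0
  have h8 := sum_le_sum hpos
  rw [← hsplit]
  linarith

/-- The local inequality. -/
theorem local_sidorenko [Nonempty X] (H : SimpleGraph V) [DecidableRel H.Adj] (hH : H.Colorable 2)
    {g : ℕ} {v0 : V} (w : H.Walk v0 v0) (hw : w.IsCycle) (hwl : w.length = 2 * g)
    (W : X → X → ℝ) (hW : ∀ x y, W x y = W y x) {p a : ℝ} (hp : 0 < p) (ha : 0 ≤ a)
    (hmean : ∑ x, ∑ y, W x y = p * (Fintype.card X : ℝ) ^ 2)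
    (hb : ∀ x y, |W x y - p| ≤ a * p)
    (hsmall : a * H.maxDegree * (g * Real.logb 2 (2 * H.maxDegree) +
      Real.logb 2 (2 * H.edgeFinset.card)) ≤ 1 / 10000) :
    p ^ H.edgeFinset.card ≤ (∑ φ : V → X, ∏ e ∈ H.edgeFinset,
      Sym2.lift ⟨fun u v => W (φ u) (φ v), fun _ _ => hW _ _⟩ e) / Fintype.card (V → X) := by
  classical
  set Δ := H.maxDegree
  set E := H.edgeFinset
  set U : X → X → ℝ := fun x y => W x y / p - 1 with hUdef
  have hU : ∀ x y, U x y = U y x := fun x y => by simp [hUdef, hW x y]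
  have h0 : ∑ x, ∑ y, U x y = 0 := by
    simp only [hUdef, sum_sub_distrib, ← sum_div, hmean, sum_const, card_univ, nsmul_eq_mul, mul_one]
    field_simp
    ring
  have hdeg : ∀ v, (E.filter fun f => v ∈ f).card ≤ Δ := fun v => by
    rw [← SimpleGraph.incidenceFinset_eq_filter, SimpleGraph.card_incidenceFinset_eq_degree]
    exact H.degree_le_maxDegree v
  obtain ⟨colF⟩ := hH
  have hcol : ∀ u v, s(u, v) ∈ E → (colF u == 0) ≠ (colF v == 0) := fun u v h => by
    have h' := colF.valid (SimpleGraph.mem_edgeFinset.1 h)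
    revert h'
    generalize colF u = i
    generalize colF v = j
    fin_cases i <;> fin_cases j <;> simp
  obtain ⟨k0, hk0⟩ : ∃ k, w.length = k + 1 := ⟨w.length - 1, by have := hw.three_le_length; omega⟩
  set c0 : Fin (k0 + 1) → V := fun i => w.getVert i with hc0def
  have hc0 : CycleIn E c0 := by
    refine ⟨by have := hw.three_le_length; omega, fun i j h => Fin.ext (hw.getVert_injOn'
      (show (i : ℕ) ≤ w.length - 1 by omega) (show (j : ℕ) ≤ w.length - 1 by omega) h), fun e he => ?_⟩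
    obtain ⟨i, -, rfl⟩ := mem_image.1 he
    rw [SimpleGraph.mem_edgeFinset, SimpleGraph.mem_edgeSet, hc0def]
    simp only [Fin.coe_sub_one]
    split_ifs with h
    · subst h
      have := w.adj_getVert_succ (i := k0) (by omega)
      rw [show w.getVert (k0 + 1) = w.getVert 0 by
        rw [← hk0, w.getVert_length, w.getVert_zero]] at this
      simpa using this
    · have hi : 0 < (i : ℕ) := Nat.pos_of_ne_zero fun h' => h (Fin.ext h')
      have := w.adj_getVert_succ (i := (i : ℕ) - 1) (by omega)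
      rwa [Nat.sub_add_cancel (by omega)] at this
  have hΔ : 1 ≤ Δ := by
    have he := hc0.2.2 (mem_image.2 ⟨0, mem_univ _, rfl⟩)
    exact ((card_pos (s := E.filter fun f => c0 0 ∈ f)).2
      ⟨_, mem_filter.2 ⟨he, Sym2.mem_mk_right _ _⟩⟩).trans_le (hdeg (c0 0))
  have hm : 1 ≤ E.card := card_pos.2 ⟨_, hc0.2.2 (mem_image.2 ⟨0, mem_univ _, rfl⟩)⟩
  have hg2 : 2 ≤ g := by have := hw.three_le_length; omega
  have hΔR : (1 : ℝ) ≤ Δ := by exact_mod_cast hΔ
  have hmR : (1 : ℝ) ≤ E.card := by exact_mod_cast hm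
  set T := (g : ℝ) * Real.logb 2 (2 * Δ) + Real.logb 2 (2 * E.card) with hT
  have hl1 : 1 ≤ Real.logb 2 (2 * (Δ : ℝ)) := by
    rw [Real.le_logb_iff_rpow_le one_lt_two (by positivity), Real.rpow_one]; linarith
  have hl2 : 1 ≤ Real.logb 2 (2 * (E.card : ℝ)) := by
    rw [Real.le_logb_iff_rpow_le one_lt_two (by positivity), Real.rpow_one]; linarith
  have hgT : (g : ℝ) + 1 ≤ T := by
    have := mul_le_mul_of_nonneg_left hl1 (Nat.cast_nonneg (α := ℝ) g)
    linarith
  set K := ⌈8 * T⌉₊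
  have hT0 : 0 ≤ T := by linarith [Nat.cast_nonneg (α := ℝ) g]
  have hKlo : 8 * T ≤ K := Nat.le_ceil _
  have hKhi : (K : ℝ) ≤ 9 * T := by
    have := (Nat.ceil_lt_add_one (show 0 ≤ 8 * T by positivity)).le
    linarith [Nat.cast_nonneg (α := ℝ) g]
  have hgK : g ≤ K := by
    have : (g : ℝ) ≤ K := by linarith [Nat.cast_nonneg (α := ℝ) g]
    exact_mod_cast this
  have hK : 2 * (E.card : ℝ) * (256 * Δ) ^ (2 * g) ≤ 2 ^ (2 * K) := by
    have h1 : ((2 * (Δ : ℝ)) ^ g * (2 * E.card)) ^ 16 ≤ 2 ^ (2 * K) := by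
      rw [← Real.rpow_natCast 2 (2 * K)]
      refine le_trans ?_ (Real.rpow_le_rpow_of_exponent_le one_le_two
        (show 16 * T ≤ ((2 * K : ℕ) : ℝ) by push_cast; linarith))
      rw [mul_comm (16 : ℝ), Real.rpow_mul two_pos.le, show (16 : ℝ) = ((16 : ℕ) : ℝ) by norm_num,
        Real.rpow_natCast, hT, Real.rpow_add two_pos, mul_comm (g : ℝ), Real.rpow_mul two_pos.le,
        Real.rpow_logb two_pos (by norm_num) (by positivity), Real.rpow_natCast,
        Real.rpow_logb two_pos (by norm_num) (by positivity)]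
    refine le_trans ?_ h1
    have h2 : (256 * (Δ : ℝ)) ^ 2 ≤ (2 * Δ) ^ 16 := by
      rw [mul_pow, mul_pow, show (256 : ℝ) ^ 2 = 2 ^ 16 by norm_num]
      exact mul_le_mul_of_nonneg_left (pow_le_pow_right₀ hΔR (by norm_num)) (by positivity)
    calc 2 * (E.card : ℝ) * (256 * Δ) ^ (2 * g) = ((256 * (Δ : ℝ)) ^ 2) ^ g * (2 * E.card) := by
          rw [← pow_mul]; ring
      _ ≤ ((2 * (Δ : ℝ)) ^ 16) ^ g * (2 * (E.card : ℝ)) ^ 16 :=
          mul_le_mul (pow_le_pow_left₀ (by positivity) h2 g) (le_self_pow₀ (by linarith) (by norm_num))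
            (by positivity) (by positivity)
      _ = ((2 * (Δ : ℝ)) ^ g * (2 * E.card)) ^ 16 := by
          rw [mul_pow _ (2 * (E.card : ℝ)), ← pow_mul, ← pow_mul, mul_comm 16 g]
  -- choose a positive bound
  obtain ⟨a', ha', haa', hθ⟩ : ∃ a' : ℝ, 0 < a' ∧ a ≤ a' ∧ a' * Δ * K ≤ 1 / 1000 := by
    rcases eq_or_lt_of_le ha with h | h
    · exact ⟨1 / (1000 * Δ * (K + 1)), by positivity, by rw [← h]; positivity, by
        rw [div_mul_eq_mul_div, div_mul_eq_mul_div, div_le_iff₀ (by positivity)]; nlinarith⟩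
    · refine ⟨a, h, le_rfl, ?_⟩
      have h9 := mul_le_mul_of_nonneg_left hKhi (show 0 ≤ a * Δ by positivity)
      change a * Δ * T ≤ 1 / 10000 at hsmall
      linarith
  have hbU : ∀ x y, |U x y| ≤ a' := fun x y => by
    simp only [hUdef]
    rw [show W x y / p - 1 = (W x y - p) / p by field_simp, abs_div, abs_of_pos hp,
      div_le_iff₀ hp]
    exact (hb x y).trans (mul_le_mul_of_nonneg_right haa' hp.le)
  have hmono : MonotoneOn (Z U E) (Set.Icc 0 1) := by
    refine monotoneOn_of_deriv_nonneg (convex_Icc 0 1)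
      (fun t _ => (hasDerivAt_Z E t).continuousAt.continuousWithinAt)
      (fun t _ => (hasDerivAt_Z E t).differentiableAt.differentiableWithinAt) fun t ht => ?_
    rw [interior_Icc] at ht
    rw [(hasDerivAt_Z E t).deriv]
    exact deriv_Z_nonneg ha' ht.1.le ht.2.le hU h0 hbU hΔ hdeg
      (fun e he => H.not_isDiag_of_mem_edgeFinset he) hcol hc0 (by omega) hgK hθ hK
  have h01 := hmono (Set.left_mem_Icc.2 zero_le_one) (Set.right_mem_Icc.2 zero_le_one) zero_le_one
  simp only [Z, zero_mul, add_zero, prod_const_one, av_const, one_mul] at h01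
  have h2 : ∀ φ : V → X, ∏ e ∈ E, Sym2.lift ⟨fun u v => W (φ u) (φ v), fun _ _ => hW _ _⟩ e
      = p ^ E.card * ∏ e ∈ E, (1 + ew U φ e) := fun φ => by
    rw [← prod_const, ← prod_mul_distrib]
    refine prod_congr rfl fun e _ => ?_
    induction e using Sym2.ind with
    | _ u v =>
      rw [ew_mk hU, Sym2.lift_mk, hUdef]
      field_simp
      ring
  simp only [h2]
  have h3 : av (fun φ : V → X => p ^ E.card * ∏ e ∈ E, (1 + ew U φ e)) = _ := av_const_mul _ _
  unfold av at h3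
  rw [h3]
  exact le_mul_of_one_le_right (by positivity) h01

end Vale.Agent.P050
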