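import Mathlib

/-! Traces of alternating words in a symmetric matrix and bounded diagonal matrices. -/

namespace Vale.Agent.P050

open Finset Matrix

set_option linter.unusedSectionVars false

variable {X : Type*} [Fintype X] [DecidableEq X]

/-- The word `A D₀ A D₁ ⋯ A Dₙ₋₁`. -/
def word (A : Matrix X X ℝ) (D : ℕ → X → ℝ) : ℕ → Matrix X X ℝ
  | 0 => 1
  | n + 1 => word A D n * (A * diagonal (D n))

variable {A : Matrix X X ℝ}

theorem word_congr {D D' : ℕ → X → ℝ} : ∀ {n : ℕ}, (∀ i < n, D i = D' i) → word A D n = word A D' n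
  | 0, _ => rfl
  | n + 1, h => by rw [word, word, word_congr fun i hi => h i (by omega), h n (by omega)]

theorem word_one : ∀ n, word A (fun _ _ => (1 : ℝ)) n = A ^ n
  | 0 => rfl
  | n + 1 => by rw [word, word_one n, diagonal_one, mul_one, pow_succ]

theorem word_add (D : ℕ → X → ℝ) (m : ℕ) : ∀ n, word A D (m + n) = word A D m * word A (fun i => D (m + i)) n
  | 0 => by simp [word]
  | n + 1 => by rw [← Nat.add_assoc, word, word, word_add D m n, mul_assoc]

theorem trace_rot (D : ℕ → X → ℝ) {n : ℕ} (h : D n = D 0) :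
    trace (word A (fun i => D (i + 1)) n) = trace (word A D n) := by
  cases n with
  | zero => rfl
  | succ n =>
    rw [show word A D (n + 1) = (A * diagonal (D 0)) * word A (fun i => D (i + 1)) n by
      rw [Nat.add_comm n 1, word_add D 1 n]; simp [word, Nat.add_comm 1], Matrix.trace_mul_comm,
      word, h]

theorem trace_shift (D : ℕ → X → ℝ) {n : ℕ} (h : ∀ i, D (i + n) = D i) :
    ∀ s, trace (word A (fun i => D (i + s)) n) = trace (word A D n)
  | 0 => rfl
  | s + 1 => by
    rw [← trace_shift D h s, ← trace_rot (fun i => D (i + s)) (n := n) (by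
      show D (n + s) = D (0 + s); rw [Nat.add_comm n s, h, Nat.zero_add])]
    congr 2; funext i; congr 1; omega

theorem mul_word_transpose (hA : A.IsSymm) (D : ℕ → X → ℝ) :
    ∀ n, A * (word A D n)ᵀ = word A (fun i => D (n - 1 - i)) n * A
  | 0 => by simp [word]
  | n + 1 => by
    rw [show word A (fun i => D (n + 1 - 1 - i)) (n + 1)
        = (A * diagonal (D n)) * word A (fun i => D (n - 1 - i)) n by
      rw [Nat.add_comm n 1, word_add _ 1 n, Nat.add_comm 1 n]
      congr 1
      · simp [word]
      · exact word_congr fun i hi => by congr 1; omega]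
    rw [word, transpose_mul, transpose_mul, diagonal_transpose, hA.eq, mul_assoc (diagonal (D n)),
      mul_word_transpose hA D n]
    simp only [mul_assoc]

/-- Reflection of a word about its middle. -/
def refl' (j : ℕ) (D : ℕ → X → ℝ) (i : ℕ) : X → ℝ :=
  if i % (2 * j) < j - 1 then D (i % (2 * j))
  else if i % (2 * j) = j - 1 ∨ i % (2 * j) = 2 * j - 1 then fun _ => 1
  else D (2 * j - 2 - i % (2 * j))

theorem word_mul_transpose (hA : A.IsSymm) {j : ℕ} (hj : 1 ≤ j) (D : ℕ → X → ℝ)
    (hD : ∀ x, D (j - 1) x * D (j - 1) x = 1) :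
    word A D j * (word A D j)ᵀ = word A (refl' j D) (2 * j) := by
  obtain ⟨p, rfl⟩ : ∃ p, j = p + 1 := ⟨j - 1, by omega⟩
  simp only [Nat.add_sub_cancel] at hD
  have hsq : diagonal (D p) * diagonal (D p) = 1 := by
    rw [diagonal_mul_diagonal, ← diagonal_one]; congr 1; funext x; exact hD x
  rw [show word A (refl' (p + 1) D) (2 * (p + 1))
      = word A D p * A * (word A (fun i => D (p - 1 - i)) p * A) by
    rw [show 2 * (p + 1) = (p + 1) + (p + 1) by omega, word_add, word, word]
    have hp : refl' (p + 1) D p = fun _ => 1 := by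
      simp [refl', Nat.mod_eq_of_lt (show p < 2 * (p + 1) by omega)]
    have hl : refl' (p + 1) D (p + 1 + p) = fun _ => 1 := by
      simp only [refl', Nat.mod_eq_of_lt (show p + 1 + p < 2 * (p + 1) by omega)]
      rw [if_neg (by omega), if_pos (Or.inr (by omega))]
    rw [hp, hl, diagonal_one, mul_one,
      word_congr (D := refl' (p + 1) D) (D' := D) fun i hi => by
        simp [refl', Nat.mod_eq_of_lt (show i < 2 * (p + 1) by omega), hi],
      word_congr (D := fun i => refl' (p + 1) D (p + 1 + i)) (D' := fun i => D (p - 1 - i))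
        fun i hi => by
          simp only [refl', Nat.mod_eq_of_lt (show p + 1 + i < 2 * (p + 1) by omega)]
          rw [if_neg (by omega), if_neg (by omega)]
          congr 1; omega],
    ← mul_word_transpose hA D p, word, transpose_mul, transpose_mul, diagonal_transpose, hA.eq]
  simp only [mul_assoc]
  rw [← mul_assoc (diagonal (D p)) (diagonal (D p)), hsq, one_mul]

theorem sq_trace_mul_le (P Q : Matrix X X ℝ) :
    trace (P * Q) ^ 2 ≤ trace (P * Pᵀ) * trace (Q * Qᵀ) := by
  simp only [trace, Matrix.diag, mul_apply, transpose_apply, ← pow_two]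
  rw [Finset.sum_comm (f := fun x y => Q x y ^ 2)]
  simp only [← Fintype.sum_prod_type']
  exact Finset.sum_mul_sq_le_sq_mul_sq _ (fun p : X × X => P p.1 p.2) (fun p : X × X => Q p.2 p.1)

theorem trace_mul_transpose_nonneg (P : Matrix X X ℝ) : 0 ≤ trace (P * Pᵀ) := by
  simp only [trace, Matrix.diag, mul_apply, transpose_apply]
  exact sum_nonneg fun _ _ => sum_nonneg fun _ _ => mul_self_nonneg _

/-- Signs, repeated periodically. -/
def sgn (n : ℕ) [NeZero n] (b : Fin n → X → Bool) (i : ℕ) (x : X) : ℝ :=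
  if b (Fin.ofNat n i) x then 1 else -1

theorem trace_word_sign_le (hA : A.IsSymm) {j : ℕ} [NeZero (2 * j)] (hj : 1 ≤ j)
    (b : Fin (2 * j) → X → Bool) :
    |trace (word A (sgn (2 * j) b) (2 * j))| ≤ trace (A ^ (2 * j)) := by
  classical
  set f : (Fin (2 * j) → X → Bool) → ℝ := fun b => |trace (word A (sgn (2 * j) b) (2 * j))|
  obtain ⟨b0, -, hmax⟩ := exists_max_image univ f univ_nonempty
  set Good : (ℕ → X → ℝ) → Prop := fun D => (∀ i, D (i + 2 * j) = D i) ∧
    (∀ i x, D i x = 1 ∨ D i x = -1) with hGood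
  have hsgn : ∀ D, Good D → f b0 ≥ |trace (word A D (2 * j))| := by
    intro D ⟨hper, hpm⟩
    refine le_trans (le_of_eq ?_) (hmax (fun i x => decide (D i x = 1)) (mem_univ _))
    show _ = |_|
    congr 2
    refine word_congr fun i hi => ?_
    funext x
    simp only [sgn, Fin.val_ofNat, Nat.mod_eq_of_lt hi]
    rcases hpm i x with h | h <;> norm_num [h]
  have hrefl : ∀ D, Good D → |trace (word A D (2 * j))| = f b0 →
      Good (refl' j D) ∧ |trace (word A (refl' j D) (2 * j))| = f b0 := by
    intro D hD he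
    have hG' : Good (refl' j D) := by
      refine ⟨fun i => by simp [refl'], fun i x => ?_⟩
      unfold refl'
      split_ifs
      · exact hD.2 _ x
      · exact Or.inl rfl
      · exact hD.2 _ x
    have hG2 : Good (fun i => D (j + i)) :=
      ⟨fun i => by show D (j + (i + 2 * j)) = _; rw [← Nat.add_assoc, hD.1], fun i x => hD.2 _ x⟩
    have hsq : ∀ E, Good E → ∀ x, E (j - 1) x * E (j - 1) x = 1 := fun E hE x => by
      rcases hE.2 (j - 1) x with h | h <;> simp [h]
    refine ⟨hG', le_antisymm (hsgn _ hG') ?_⟩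
    have h1 := sq_trace_mul_le (word A D j) (word A (fun i => D (j + i)) j)
    rw [← word_add, ← two_mul, ← sq_abs, he, word_mul_transpose hA hj D (hsq D hD),
      word_mul_transpose hA hj _ (hsq _ hG2)] at h1
    have hnn : 0 ≤ trace (word A (refl' j D) (2 * j)) := by
      rw [← word_mul_transpose hA hj D (hsq D hD)]; exact trace_mul_transpose_nonneg _
    have hG2' : Good (refl' j fun i => D (j + i)) := by
      refine ⟨fun i => by simp [refl'], fun i x => ?_⟩
      unfold refl'
      split_ifs
      · exact hG2.2 _ x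
      · exact Or.inl rfl
      · exact hG2.2 _ x
    have h2 : trace (word A (refl' j fun i => D (j + i)) (2 * j)) ≤ f b0 :=
      (le_abs_self _).trans (hsgn _ hG2')
    rw [abs_of_nonneg hnn]
    by_contra hlt
    push Not at hlt
    have h3 := mul_le_mul_of_nonneg_left h2 hnn
    have h4 : trace (word A (refl' j D) (2 * j)) * f b0 < f b0 * f b0 :=
      mul_lt_mul_of_pos_right hlt (hnn.trans_lt hlt)
    nlinarith
  -- a maximiser with a run of ones
  have hrun : ∀ l, l ≤ j - 1 → ∃ D, Good D ∧ |trace (word A D (2 * j))| = f b0 ∧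
      ∀ i < l, D i = fun _ => 1 := by
    intro l
    induction l with
    | zero =>
      intro _
      refine ⟨sgn (2 * j) b0, ⟨fun i => ?_, fun i x => ?_⟩, rfl, fun i hi => absurd hi (by omega)⟩
      · funext x
        simp only [sgn, show (Fin.ofNat (2 * j) (i + 2 * j)) = Fin.ofNat (2 * j) i from Fin.ext (by simp [Fin.ofNat])]
      · unfold sgn; split_ifs <;> simp
    | succ l ih =>
      intro hl
      obtain ⟨D, hD, he, h1⟩ := ih (by omega)
      -- move the run next to the middle
      set s := 2 * j - (j - 1 - l) with hs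
      have hD' : Good (fun i => D (i + s)) :=
        ⟨fun i => by show D (i + 2 * j + s) = _; rw [Nat.add_right_comm, hD.1],
          fun i x => hD.2 _ x⟩
      obtain ⟨hR, hRe⟩ := hrefl _ hD' (by rw [trace_shift D hD.1 s]; exact he)
      refine ⟨fun i => refl' j (fun i => D (i + s)) (i + (j - 1 - l)),
        ⟨fun i => by
          show refl' j _ (i + 2 * j + (j - 1 - l)) = _
          rw [Nat.add_right_comm, hR.1], fun i x => hR.2 _ x⟩, ?_, ?_⟩
      · rw [trace_shift _ hR.1 (j - 1 - l)]; exact hRe
      · intro i hi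
        simp only [refl', Nat.mod_eq_of_lt (show i + (j - 1 - l) < 2 * j by omega)]
        by_cases hlt : i + (j - 1 - l) < j - 1
        · rw [if_pos hlt, show i + (j - 1 - l) + s = i + 2 * j by omega, hD.1]
          exact h1 i (by omega)
        · rw [if_neg hlt, if_pos (Or.inl (by omega))]
  obtain ⟨D, hD, he, h1⟩ := hrun (j - 1) le_rfl
  obtain ⟨-, hRe⟩ := hrefl D hD he
  have hone : word A (refl' j D) (2 * j) = A ^ (2 * j) := by
    rw [← word_one]
    refine word_congr fun i hi => ?_
    simp only [refl', Nat.mod_eq_of_lt hi]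
    split_ifs with h h'
    · exact h1 _ h
    · rfl
    · exact h1 _ (by omega)
  rw [hone, two_mul, pow_add] at hRe
  have hpos : 0 ≤ trace (A ^ j * A ^ j) := by
    have := trace_mul_transpose_nonneg (A ^ j)
    rwa [(hA.pow j).eq] at this
  rw [abs_of_nonneg hpos] at hRe
  calc f b ≤ f b0 := hmax b (mem_univ _)
    _ = _ := by rw [← hRe, two_mul, pow_add]

/-- The trace of a word as a sum over closed sequences. -/
theorem trace_word {n : ℕ} [NeZero n] (D : ℕ → X → ℝ) :
    trace (word A D n) = ∑ z : Fin n → X, ∏ i : Fin n, A (z (i - 1)) (z i) * D i (z i) := by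
  have key : ∀ (m : ℕ) (x y : X), word A D m x y = ∑ z : Fin m → X,
      if (Fin.cons x z : Fin (m + 1) → X) (Fin.last m) = y then
        ∏ i : Fin m, A ((Fin.cons x z : Fin (m + 1) → X) i.castSucc) (z i) * D i (z i) else 0 := by
    intro m
    induction m with
    | zero => intro x y; simp [word, Matrix.one_apply]
    | succ m ih =>
      intro x y
      rw [word, mul_apply, ← (Fin.snocEquiv fun _ : Fin (m + 1) => X).sum_comp,
        Fintype.sum_prod_type]
      simp only [Fin.snocEquiv, Equiv.coe_fn_mk]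
      rw [Finset.sum_comm]
      simp only [Fin.cons_snoc_eq_snoc_cons, Fin.snoc_last, Fin.prod_univ_castSucc,
        Fin.snoc_castSucc, Fin.val_castSucc, Fin.val_last, Finset.sum_ite_eq', mem_univ, if_true,
        ih, Finset.sum_mul, Matrix.mul_diagonal]
      rw [Finset.sum_comm]
      refine Finset.sum_congr rfl fun z _ => ?_
      simp only [ite_mul, zero_mul, Finset.sum_ite_eq, mem_univ, if_true]
  obtain ⟨m, rfl⟩ : ∃ m, n = m + 1 := ⟨n - 1, by have := NeZero.ne n; omega⟩
  simp only [trace, Matrix.diag, key]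
  rw [Finset.sum_comm]
  refine Finset.sum_congr rfl fun z _ => ?_
  simp only [← Fin.succ_last, Fin.cons_succ, Finset.sum_ite_eq, mem_univ, if_true]
  refine Finset.prod_congr rfl fun i _ => ?_
  congr 2
  induction i using Fin.cases with
  | zero =>
    simp only [Fin.castSucc_zero, Fin.cons_zero, zero_sub]
    exact congrArg z (Fin.ext (by simp [Fin.coe_neg_one]))
  | succ i =>
    rw [show i.succ.castSucc = i.castSucc.succ from Fin.ext rfl, Fin.cons_succ]
    congr 1
    exact Fin.ext (by simp [Fin.coe_sub_one])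

/-- Bounded diagonal weights do not increase the trace of an even power. -/
theorem abs_sum_cycle_le (hA : A.IsSymm) {j : ℕ} [NeZero (2 * j)] (hj : 1 ≤ j)
    (g : Fin (2 * j) → X → ℝ) (hg : ∀ i x, |g i x| ≤ 1) :
    |∑ z : Fin (2 * j) → X, ∏ i, A (z (i - 1)) (z i) * g i (z i)| ≤ trace (A ^ (2 * j)) := by
  classical
  set s : Bool → ℝ := fun t => if t then 1 else -1 with hs
  set p : Fin (2 * j) → X → Bool → ℝ := fun i x t => (1 + s t * g i x) / 2 with hp
  set P : (Fin (2 * j) → X → Bool) → ℝ := fun b => ∏ i, ∏ x, p i x (b i x) with hP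
  have hp0 : ∀ i x t, 0 ≤ p i x t := by
    intro i x t
    have := abs_le.1 (hg i x)
    cases t <;> simp [hp, hs] <;> linarith
  have hP0 : ∀ b, 0 ≤ P b := fun b => prod_nonneg fun i _ => prod_nonneg fun x _ => hp0 _ _ _
  have hexp : ∀ z : Fin (2 * j) → X, ∑ b, P b * ∏ i, s (b i (z i)) = ∏ i, g i (z i) := by
    intro z
    have : ∀ b : Fin (2 * j) → X → Bool, P b * ∏ i, s (b i (z i))
        = ∏ i, ∏ x, p i x (b i x) * (if x = z i then s (b i x) else 1) := fun b => by
      simp only [hP, prod_mul_distrib, Finset.prod_ite_eq', mem_univ, if_true]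
    simp only [this]
    refine ((Fintype.prod_sum fun (i : Fin (2 * j)) (c : X → Bool) =>
      ∏ x, p i x (c x) * (if x = z i then s (c x) else 1)).symm).trans ?_
    refine prod_congr rfl fun i _ => ?_
    refine ((Fintype.prod_sum fun (x : X) (t : Bool) =>
      p i x t * (if x = z i then s t else 1)).symm).trans ?_
    rw [Finset.prod_eq_single (z i) (fun x _ hx => by
      simp [hx, hp, hs]; ring) (by simp)]
    simp [hp, hs]; ring
  have htot : ∑ b, P b = 1 := by
    simp only [hP]
    refine ((Fintype.prod_sum fun (i : Fin (2 * j)) (c : X → Bool) => ∏ x, p i x (c x)).symm).trans ?_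
    refine prod_eq_one fun i _ => ?_
    refine ((Fintype.prod_sum fun (x : X) (t : Bool) => p i x t).symm).trans ?_
    exact prod_eq_one fun x _ => by simp [hp, hs]; ring
  have hid : ∑ z : Fin (2 * j) → X, ∏ i, A (z (i - 1)) (z i) * g i (z i)
      = ∑ b, P b * trace (word A (sgn (2 * j) b) (2 * j)) := by
    simp only [trace_word, mul_sum]
    rw [sum_comm]
    refine sum_congr rfl fun z _ => ?_
    rw [prod_mul_distrib, ← hexp z, mul_sum]
    refine sum_congr rfl fun b _ => ?_
    rw [prod_mul_distrib]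
    have : ∀ i : Fin (2 * j), sgn (2 * j) b i (z i) = s (b i (z i)) := fun i => by simp [sgn, hs]
    simp only [this]
    ring
  rw [hid]
  refine (abs_sum_le_sum_abs _ _).trans ((sum_le_sum (g := fun b => P b * trace (A ^ (2 * j)))
    fun b _ => ?_).trans (le_of_eq (by rw [← sum_mul, htot, one_mul])))
  rw [abs_mul, abs_of_nonneg (hP0 b)]
  exact mul_le_mul_of_nonneg_left (trace_word_sign_le hA hj b) (hP0 b)

/-- Higher even powers are controlled by lower ones. -/
theorem trace_pow_le (hA : A.IsSymm) {a : ℝ} (ha : 0 ≤ a)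
    (hbd : ∀ x y, |A x y| ≤ a / Fintype.card X) {g : ℕ} :
    ∀ j, g ≤ j → trace (A ^ (2 * j)) ≤ a ^ (2 * (j - g)) * trace (A ^ (2 * g)) := by
  have hF : ∀ j, trace (A ^ (2 * j)) = ∑ x, ∑ y, (A ^ j) x y ^ 2 := fun j => by
    rw [two_mul, pow_add]
    simp only [trace, Matrix.diag, mul_apply]
    refine sum_congr rfl fun x _ => sum_congr rfl fun y _ => ?_
    rw [(hA.pow j).apply x y, sq]
  have hstep : ∀ j, trace (A ^ (2 * (j + 1))) ≤ a ^ 2 * trace (A ^ (2 * j)) := by
    intro j
    rw [hF, hF, Finset.mul_sum]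
    refine sum_le_sum fun x _ => ?_
    rcases isEmpty_or_nonempty X with hX | hX
    · simp
    have hc : (0 : ℝ) < Fintype.card X := by exact_mod_cast Fintype.card_pos
    refine (sum_le_card_nsmul _ _ (a ^ 2 / Fintype.card X * ∑ y, (A ^ j) x y ^ 2) fun y _ => ?_).trans
      (le_of_eq ?_)
    · rw [pow_succ A j, mul_apply]
      refine (sum_mul_sq_le_sq_mul_sq _ _ _).trans ?_
      rw [mul_comm]
      refine mul_le_mul_of_nonneg_right ?_ (sum_nonneg fun _ _ => sq_nonneg _)
      refine (sum_le_card_nsmul _ _ ((a / Fintype.card X) ^ 2) fun z _ => ?_).trans (le_of_eq ?_)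
      · rw [← sq_abs]; exact pow_le_pow_left₀ (abs_nonneg _) (hbd z y) 2
      · rw [Finset.card_univ, nsmul_eq_mul]; field_simp
    · rw [Finset.card_univ, nsmul_eq_mul]; field_simp
  intro j hj
  induction j, hj using Nat.le_induction with
  | base => simp
  | succ j hj ih =>
    refine (hstep j).trans ((mul_le_mul_of_nonneg_left ih (sq_nonneg a)).trans (le_of_eq ?_))
    rw [show j + 1 - g = (j - g) + 1 by omega, mul_add, pow_add]
    ring

end Vale.Agent.P050
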